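import Crest.Agent.N334.Sw.Defs
import Crest.Agent.N334.G.Lift
import Crest.Agent.N334.G.Law

/-!
# Row 334, S0519 SWITCH (helper45): expansion of a weighted energy around the cavity
-/

set_option autoImplicit false

open MeasureTheory Finset Complex
open scoped ComplexConjugate

noncomputable section

namespace Crest.Agent.N334.Sw

open G I

theorem ga_nonneg (η : ℝ) (t : ℂ) : 0 ≤ ga η t := abs_nonneg _

@[fun_prop] theorem measurable_ga (η : ℝ) : Measurable (ga η) := by unfold ga; fun_prop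

theorem ga_pt (η a : ℝ) {γ : ℝ} (hγ : 0 ≤ γ) : ga η (pt (η + γ) a) = γ := by
  simp [ga, pt, abs_of_nonneg hγ]

theorem ga_pt_zero (η a : ℝ) : ga η (pt η a) = 0 := by simp [ga, pt]

theorem port_Kw (L : G.Lat) (E : ℝ) {η : ℝ} (hη : 0 < η) (w : L.X → ℂ) : IsPort (Kw L E η w) :=
  L.port_Km E hη (fun _ => ga_nonneg _ _) _

theorem Kw_update (L : G.Lat) (E : ℝ) {η : ℝ} (hη : 0 < η) (w : L.X → ℂ) (y : L.X) :
    ∃ c : Cav ((y, true) : L.P), ∀ t, Kw L E η (Function.update w y t) = c.K t.re (ga η t) := by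
  obtain ⟨c, hc, -⟩ := exists_cav L E hη (γ := fun x => ga η (w x)) (fun _ => ga_nonneg _ _)
    (fun x => (w x).re) y
  refine ⟨c, fun t => ?_⟩
  rw [← hc _ _ (ga_nonneg η t), Kw]
  congr 1
  · funext x
    rcases eq_or_ne x y with rfl | hx
    · simp
    · simp [hx]
  · funext x
    rcases eq_or_ne x y with rfl | hx
    · simp
    · simp [hx]

section scalar
variable {s : ℂ} {a γ γ' : ℝ}

theorem normSq_zz (s : ℂ) (a γ : ℝ) :
    ‖zz s a γ‖ ^ 2 = 1 / ((a - s.re) ^ 2 + (γ + s.im) ^ 2) := by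
  rw [zz, norm_div, norm_one, div_pow, one_pow, Complex.sq_norm, Complex.normSq_apply]
  simp
  ring

theorem den_ne (hs : 0 < s.im) (hγ : 0 ≤ γ) : (a : ℂ) - I * γ - s ≠ 0 := fun h => by
  have := congrArg Complex.im h
  simp at this
  linarith

theorem zz_sub (hs : 0 < s.im) (h0 : 0 ≤ γ') (h : γ' ≤ γ) :
    zz s a γ' - zz s a γ = -I * ((γ - γ' : ℝ) : ℂ) * zz s a γ * zz s a γ' := by
  have h1 := den_ne (a := a) hs h0
  have h2 := den_ne (a := a) hs (h0.trans h)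
  unfold zz
  field_simp
  push_cast
  ring

theorem norm_zz_sub (hs : 0 < s.im) (h0 : 0 ≤ γ') (h : γ' ≤ γ) :
    ‖zz s a γ' - zz s a γ‖ = (γ - γ') * ‖zz s a γ‖ * ‖zz s a γ'‖ := by
  rw [zz_sub hs h0 h]
  simp only [norm_mul, norm_neg, Complex.norm_I, one_mul, Complex.norm_real, Real.norm_eq_abs,
    abs_of_nonneg (sub_nonneg.2 h)]

theorem sq_zz_sub (hs : 0 < s.im) (h0 : 0 ≤ γ') (h : γ' ≤ γ) :
    ‖zz s a γ'‖ ^ 2 - ‖zz s a γ‖ ^ 2 =
      (γ - γ') * (γ + γ' + 2 * s.im) * (‖zz s a γ‖ ^ 2 * ‖zz s a γ'‖ ^ 2) := by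
  rw [normSq_zz, normSq_zz]
  have h1 : 0 < (a - s.re) ^ 2 + (γ + s.im) ^ 2 := by
    have : 0 < γ + s.im := by linarith
    positivity
  have h2 : 0 < (a - s.re) ^ 2 + (γ' + s.im) ^ 2 := by
    have : 0 < γ' + s.im := by linarith
    positivity
  field_simp
  ring

theorem sq_zz_mono (hs : 0 < s.im) (h0 : 0 ≤ γ') (h : γ' ≤ γ) :
    ‖zz s a γ‖ ^ 2 ≤ ‖zz s a γ'‖ ^ 2 := by
  have h1 := sq_zz_sub (a := a) hs h0 h
  have : 0 ≤ (γ - γ') * (γ + γ' + 2 * s.im) * (‖zz s a γ‖ ^ 2 * ‖zz s a γ'‖ ^ 2) := by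
    have := sub_nonneg.2 h
    have : 0 ≤ γ := h0.trans h
    positivity
  linarith

theorem norm_zz_mono (hs : 0 < s.im) (h0 : 0 ≤ γ') (h : γ' ≤ γ) : ‖zz s a γ‖ ≤ ‖zz s a γ'‖ :=
  (pow_le_pow_iff_left₀ (norm_nonneg _) (norm_nonneg _) two_ne_zero).1 (sq_zz_mono hs h0 h)

theorem im_mul_norm_zz (hs : 0 < s.im) (hγ : 0 ≤ γ) : s.im * ‖zz s a γ‖ ≤ 1 := by
  have := norm_zz_le (s := s) (γ := γ) (by linarith) a
  nlinarith [norm_nonneg (zz s a γ)]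

theorem im_sq_sub_le (hs : 0 < s.im) (h0 : 0 ≤ γ') (h : γ' ≤ γ) :
    (γ' + s.im) * (‖zz s a γ'‖ ^ 2 - ‖zz s a γ‖ ^ 2) ≤
      (zz s a γ' - zz s a γ).im + γ * ‖zz s a γ‖ ^ 2 := by
  rw [Complex.sub_im, im_zz, im_zz]
  nlinarith [sq_nonneg ‖zz s a γ‖]

theorem im_sq_sub_le' (hs : 0 < s.im) (h0 : 0 ≤ γ') (h : γ' ≤ γ) :
    s.im * (‖zz s a γ'‖ ^ 2 - ‖zz s a γ‖ ^ 2) ≤
      (zz s a γ' - zz s a γ).im + γ * ‖zz s a γ‖ ^ 2 := by
  have h1 := im_sq_sub_le (a := a) hs h0 h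
  have h2 := sq_zz_mono (a := a) hs h0 h
  nlinarith

theorem im_norm_sub_sq_le (hs : 0 < s.im) (h0 : 0 ≤ γ') (h : γ' ≤ γ) :
    s.im * ‖zz s a γ' - zz s a γ‖ ^ 2 ≤ (zz s a γ' - zz s a γ).im + γ * ‖zz s a γ‖ ^ 2 := by
  refine le_trans ?_ (im_sq_sub_le' (a := a) hs h0 h)
  rw [norm_zz_sub hs h0 h, sq_zz_sub hs h0 h]
  have hd := sub_nonneg.2 h
  have : (γ - γ') * (γ - γ') ≤ (γ - γ') * (γ + γ' + 2 * s.im) := by
    apply mul_le_mul_of_nonneg_left _ hd; linarith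
  calc s.im * ((γ - γ') * ‖zz s a γ‖ * ‖zz s a γ'‖) ^ 2
      = s.im * ((γ - γ') * (γ - γ') * (‖zz s a γ‖ ^ 2 * ‖zz s a γ'‖ ^ 2)) := by ring
    _ ≤ _ := by gcongr

end scalar

section cav
variable {P : Type} [Fintype P] [DecidableEq P] {y : P} (c : Cav y)

/-- the cubic cavity form -/
def Th (w : P → P → ℝ) : ℂ := ∑ p, ∑ q, conj (c.K0 p q) * c.rho p * c.rho q * (w p q : ℂ)

/-- the quartic cavity form -/
def Bb (w : P → P → ℝ) : ℝ := ∑ p, ∑ q, ‖c.rho p‖ ^ 2 * ‖c.rho q‖ ^ 2 * w p q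

theorem V_nonneg {w : P → P → ℝ} (hw : ∀ p q, 0 ≤ w p q) : 0 ≤ c.V w :=
  sum_nonneg fun p _ => mul_nonneg (sq_nonneg _) (hw _ _)

theorem Bb_nonneg {w : P → P → ℝ} (hw : ∀ p q, 0 ≤ w p q) : 0 ≤ Bb c w :=
  sum_nonneg fun p _ => sum_nonneg fun q _ => mul_nonneg (by positivity) (hw _ _)

theorem V_le {w : P → P → ℝ} {D : ℝ} (hw : ∀ p q, w p q ≤ D) : c.V w ≤ D * c.s.im := by
  rw [c.im_s, mul_sum]
  exact sum_le_sum fun p _ => by rw [mul_comm D]; exact mul_le_mul_of_nonneg_left (hw _ _) (sq_nonneg _)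

theorem sq_vec {γ : ℝ} (hγ : 0 ≤ γ) (p : P) :
    ‖c.vec γ p‖ ^ 2 = ‖c.rho p‖ ^ 2 + if p = y then γ else 0 := by
  unfold Cav.vec
  split_ifs with h
  · subst h; simp [c.rho_y, Real.sq_sqrt hγ]
  · simp

theorem K0_vec (γ : ℝ) (p q : P) :
    conj (c.K0 p q) * c.vec γ p * c.vec γ q = conj (c.K0 p q) * c.rho p * c.rho q := by
  unfold Cav.vec
  by_cases hq : q = y
  · subst hq; simp [c.K0_y]
  · by_cases hp : p = y
    · subst hp; simp [c.port0.symm p q, c.K0_y]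
    · simp [hp, hq]

theorem sum_vec_vec {w : P → P → ℝ} (hs : ∀ p q, w p q = w q p) (h0 : w y y = 0) {γ : ℝ}
    (hγ : 0 ≤ γ) :
    ∑ p, ∑ q, ‖c.vec γ p‖ ^ 2 * ‖c.vec γ q‖ ^ 2 * w p q = Bb c w + 2 * γ * c.V w := by
  have e : ∀ p q, ‖c.vec γ p‖ ^ 2 * ‖c.vec γ q‖ ^ 2 * w p q =
      ‖c.rho p‖ ^ 2 * ‖c.rho q‖ ^ 2 * w p q + (if q = y then γ * (‖c.rho p‖ ^ 2 * w y p) else 0) +
        (if p = y then γ * (‖c.rho q‖ ^ 2 * w y q) else 0) := by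
    intro p q
    rw [sq_vec c hγ, sq_vec c hγ]
    by_cases hp : p = y <;> by_cases hq : q = y
    · subst hp; subst hq; simp [h0]
    · subst hp; simp [hq]; ring
    · subst hq; simp [hp, hs p q]; ring
    · simp [hp, hq]
  simp only [e, sum_add_distrib, Bb, Cav.V]
  rw [sum_comm (f := fun p q => if p = y then γ * (‖c.rho q‖ ^ 2 * w y q) else 0)]
  simp only [sum_ite_eq', mem_univ, if_true, ← mul_sum]
  ring

/-- expansion around the cavity -/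
theorem En_K {w : P → P → ℝ} (hs : ∀ p q, w p q = w q p) (h0 : w y y = 0) (a : ℝ) {γ : ℝ}
    (hγ : 0 ≤ γ) :
    En w (c.K a γ) = En w c.K0 + (4 * I * (Th c w - 2 * c.V w) * c.z a γ).re -
      (8 * c.s.im * c.V w - 4 * Bb c w) * ‖c.z a γ‖ ^ 2 := by
  have e : ∀ p q, cc (c.K a γ) p q * w p q = cc c.K0 p q * w p q +
      (4 * I * c.z a γ * (conj (c.K0 p q) * c.rho p * c.rho q * (w p q : ℂ))).re +
      4 * ‖c.z a γ‖ ^ 2 * (‖c.vec γ p‖ ^ 2 * ‖c.vec γ q‖ ^ 2 * w p q) := by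
    intro p q
    rw [← K0_vec c γ p q]
    have h1 : cc (c.K a γ) p q = cc c.K0 p q +
        2 * (conj (c.K0 p q) * (2 * I * c.z a γ * c.vec γ p * c.vec γ q)).re +
        ‖2 * I * c.z a γ * c.vec γ p * c.vec γ q‖ ^ 2 := by
      simp only [cc, Cav.K, Complex.sq_norm, Complex.normSq_add]
      rw [← Complex.conj_re (c.K0 p q * _)]
      simp only [map_mul, Complex.conj_conj]
      ring
    have h2 : ‖2 * I * c.z a γ * c.vec γ p * c.vec γ q‖ ^ 2 =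
        4 * ‖c.z a γ‖ ^ 2 * (‖c.vec γ p‖ ^ 2 * ‖c.vec γ q‖ ^ 2) := by
      simp only [norm_mul, Complex.norm_I, Complex.norm_ofNat]; ring
    have h3 : (4 * I * c.z a γ * (conj (c.K0 p q) * c.vec γ p * c.vec γ q * (w p q : ℂ))) =
        ((2 * w p q : ℝ) : ℂ) * (conj (c.K0 p q) * (2 * I * c.z a γ * c.vec γ p * c.vec γ q)) := by
      push_cast; ring
    rw [h1, h2, h3, Complex.re_ofReal_mul]
    ring
  have him : (c.z a γ).im = (γ + c.s.im) * ‖c.z a γ‖ ^ 2 := im_zz _ _ _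
  simp only [En, Gam, e, sum_add_distrib, ← mul_sum, ← Complex.re_sum]
  rw [sum_vec_vec c hs h0 hγ]
  have h4 : (4 * I * (Th c w - 2 * c.V w) * c.z a γ).re =
      (4 * I * c.z a γ * Th c w).re + 8 * c.V w * (c.z a γ).im := by
    have : 4 * I * (Th c w - 2 * c.V w) * c.z a γ =
        4 * I * c.z a γ * Th c w + ((8 * c.V w : ℝ) : ℂ) * (-I * c.z a γ) := by push_cast; ring
    rw [this, Complex.add_re, Complex.re_ofReal_mul]
    simp
  rw [h4, him, Th]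
  ring

end cav

end Crest.Agent.N334.Sw
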