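import Crest.Agent.N334.Sw.Exp
import Crest.Agent.N334.G.Qs
import Crest.Agent.N334.I.Mix

/-!
# Row 334, S0519 SWITCH (helper45): one-site changes of law, smooth ports
-/

set_option autoImplicit false

open MeasureTheory Finset Complex
open scoped ComplexConjugate

noncomputable section

namespace Crest.Agent.N334.Sw

open G I

theorem integral_lift (g : ℝ) (ν : Measure ℝ) {F : ℂ → ℝ} (hF : Measurable F) :
    ∫ t, F t ∂lift g ν = ∫ a, F (pt g a) ∂ν :=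
  integral_map (measurable_pt g).aemeasurable hF.aestronglyMeasurable

theorem measurable_zz2 (η : ℝ) (s : ℂ) : Measurable fun t : ℂ => zz s t.re (ga η t) := by
  unfold zz; fun_prop

theorem measurable_shz (η : ℝ) (s : ℂ) : Measurable (shz η s) := by
  have := measurable_zz2 η s
  unfold shz; fun_prop

theorem shz_nonneg (η : ℝ) (s t : ℂ) : 0 ≤ shz η s t := mul_nonneg (ga_nonneg _ _) (sq_nonneg _)

theorem norm_zz_le' {s : ℂ} (hs : 0 < s.im) (a : ℝ) {γ : ℝ} (hγ : 0 ≤ γ) :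
    ‖zz s a γ‖ ≤ 1 / s.im := by
  rw [le_div_iff₀ hs, mul_comm]; exact im_mul_norm_zz hs hγ

theorem shz_le (η : ℝ) {s : ℂ} (hs : 0 < s.im) (t : ℂ) : shz η s t ≤ 1 / s.im := by
  have h0 := ga_nonneg η t
  have h1 := norm_zz_le (s := s) (γ := ga η t) (by linarith) t.re
  have h2 := norm_zz_le' hs t.re h0
  have h3 := norm_nonneg (zz s t.re (ga η t))
  have h4 : ga η t * ‖zz s t.re (ga η t)‖ ≤ 1 := by nlinarith
  calc shz η s t = ga η t * ‖zz s t.re (ga η t)‖ * ‖zz s t.re (ga η t)‖ := by rw [shz]; ring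
    _ ≤ 1 * (1 / s.im) := by gcongr
    _ = _ := one_mul _

theorem bm_shz (η : ℝ) {s : ℂ} (hs : 0 < s.im) : BM (shz η s) :=
  ⟨measurable_shz η s, 1 / s.im, fun t => by
    rw [abs_of_nonneg (shz_nonneg η s t)]; exact shz_le η hs t⟩

theorem shz_pt (η : ℝ) (s : ℂ) (a : ℝ) {γ : ℝ} (hγ : 0 ≤ γ) :
    shz η s (pt (η + γ) a) = γ * ‖zz s a γ‖ ^ 2 := by rw [shz, ga_pt η a hγ, pt_re]

theorem integrable_zz {s : ℂ} (hs : 0 < s.im) {γ : ℝ} (hγ : 0 ≤ γ) (ν : Measure ℝ)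
    [IsFiniteMeasure ν] : Integrable (fun a => zz s a γ) ν :=
  Integrable.of_bound (measurable_zz s γ).aestronglyMeasurable (1 / s.im)
    (Filter.Eventually.of_forall fun a => norm_zz_le' hs a hγ)

theorem integral_shz_lift (η : ℝ) (s : ℂ) {γ : ℝ} (hγ : 0 ≤ γ) (ν : Measure ℝ) :
    ∫ t, shz η s t ∂lift (η + γ) ν = ∫ a, γ * ‖zz s a γ‖ ^ 2 ∂ν := by
  rw [integral_lift _ _ (measurable_shz η s)]
  simp only [shz_pt η s _ hγ]

/-- the step `γ → γ'` at a fixed law of the real part -/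
theorem step_lift {η : ℝ} {s β : ℂ} {b : ℝ} {Ψ : ℝ → ℝ → ℝ} (hs : 0 < s.im)
    (hΨ : BM fun t : ℂ => Ψ t.re (ga η t)) (hP : PW s β b Ψ) (ν : Measure ℝ) [IsFiniteMeasure ν]
    {γ γ' : ℝ} (h0 : 0 ≤ γ') (h : γ' ≤ γ) :
    ∫ t, Ψ t.re (ga η t) ∂lift (η + γ') ν ≤ ∫ t, Ψ t.re (ga η t) ∂lift (η + γ) ν +
      ‖β‖ * ‖∫ a, (zz s a γ' - zz s a γ) ∂ν‖ + b * ∫ t, shz η s t ∂lift (η + γ) ν := by
  have hγ := h0.trans h
  have i1 : ∀ g, 0 ≤ g → Integrable (fun a => Ψ a g) ν := fun g hg => by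
    have := (hΨ.comp (measurable_pt (η + g))).integrable ν
    simpa only [ga_pt η _ hg, pt_re] using this
  have i2 : Integrable (fun a => zz s a γ' - zz s a γ) ν :=
    (integrable_zz hs h0 ν).sub (integrable_zz hs hγ ν)
  have i3 : Integrable (fun a => γ * ‖zz s a γ‖ ^ 2) ν := by
    have := ((bm_shz η hs).comp (measurable_pt (η + γ))).integrable ν
    simpa only [shz_pt η s _ hγ] using this
  have i4 : Integrable (fun a => (β * (zz s a γ' - zz s a γ)).re) ν := (i2.const_mul β).re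
  rw [integral_lift _ _ hΨ.meas, integral_lift _ _ hΨ.meas, integral_shz_lift η s hγ]
  simp only [ga_pt η _ h0, ga_pt η _ hγ, pt_re]
  have h1 : ∫ a, Ψ a γ' ∂ν ≤
      ∫ a, (Ψ a γ + (β * (zz s a γ' - zz s a γ)).re + b * (γ * ‖zz s a γ‖ ^ 2)) ∂ν :=
    integral_mono (i1 _ h0) (((i1 _ hγ).add i4).add (i3.const_mul b)) fun a => hP a γ γ' h0 h
  have i5 : Integrable (fun a => Ψ a γ + (β * (zz s a γ' - zz s a γ)).re) ν := (i1 _ hγ).add i4
  rw [integral_add i5 (i3.const_mul b), integral_add (i1 _ hγ) i4, integral_const_mul] at h1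
  have h2 : ∫ a, (β * (zz s a γ' - zz s a γ)).re ∂ν = (β * ∫ a, (zz s a γ' - zz s a γ) ∂ν).re := by
    rw [← integral_const_mul]
    exact integral_re (i2.const_mul β)
  have h3 := (Complex.re_le_norm (β * ∫ a, (zz s a γ' - zz s a γ) ∂ν))
  rw [norm_mul] at h3
  linarith

theorem law_close : ∃ C : ℝ, 1 ≤ C ∧ ∀ (s : ℂ) (a₀ b γ : ℝ), 0 < s.im → 0 ≤ γ → γ ≤ b →
    ‖∫ a, (zz s a 0 - zz s a γ) ∂law a₀ b‖ ≤ C * γ * ‖zz s a₀ b‖ ^ 2 := by
  obtain ⟨C, hC, H⟩ := law_zz_sub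
  refine ⟨C + 1, by linarith, fun s a₀ b γ hs h0 hb => ?_⟩
  rcases h0.eq_or_lt with rfl | h0'
  · simp
  · have := H s a₀ b γ 0 hs le_rfl h0' hb
    rw [sub_zero] at this
    refine this.trans ?_
    gcongr
    linarith

/-- closing a smooth port, first order against the reference value -/
theorem step_ref : ∃ C : ℝ, 1 ≤ C ∧ ∀ η a₀ b γ : ℝ, 0 < b → 0 ≤ γ → γ ≤ b →
    Step η (lift (η + γ) (law a₀ b)) (lift η (law a₀ b))
      (C * (γ / b)) (Measure.dirac (pt (η + b) a₀)) 1 (lift (η + γ) (law a₀ b)) := by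
  obtain ⟨C, hC, H⟩ := law_close
  refine ⟨C, hC, fun η a₀ b γ hb h0 hγ s β b₂ Ψ hs hb₂ hΨ hP => ?_⟩
  have := law_prob a₀ hb
  have h1 := step_lift hs hΨ hP (law a₀ b) le_rfl h0
  rw [add_zero] at h1
  rw [integral_dirac, shz_pt η s _ hb.le, one_mul]
  have h2 := H s a₀ b γ hs h0 hγ
  have h3 : C * (γ / b) * (‖β‖ * (b * ‖zz s a₀ b‖ ^ 2)) = ‖β‖ * (C * γ * ‖zz s a₀ b‖ ^ 2) := by
    field_simp
  rw [h3]
  have := mul_le_mul_of_nonneg_left h2 (norm_nonneg β)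
  linarith

/-- closing a smooth port, trivial bound -/
theorem step_open : ∃ C : ℝ, 1 ≤ C ∧ ∀ η a₀ b γ : ℝ, 0 < b → 0 ≤ γ → γ ≤ b →
    Step η (lift (η + γ) (law a₀ b)) (lift η (law a₀ b))
      C (lift (η + γ) (law a₀ b)) 1 (lift (η + γ) (law a₀ b)) := by
  obtain ⟨C, hC, H⟩ := law_close
  refine ⟨9 * C, by linarith, fun η a₀ b γ hb h0 hγ s β b₂ Ψ hs hb₂ hΨ hP => ?_⟩
  have := law_prob a₀ hb
  have h1 := step_lift hs hΨ hP (law a₀ b) le_rfl h0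
  rw [add_zero] at h1
  have h2 := H s a₀ b γ hs h0 hγ
  have h3 : γ * ‖zz s a₀ b‖ ^ 2 ≤ 9 * ∫ t, shz η s t ∂lift (η + γ) (law a₀ b) := by
    rw [integral_shz_lift η s h0, ← integral_const_mul]
    have i3 : Integrable (fun a => γ * ‖zz s a γ‖ ^ 2) (law a₀ b) := by
      have := ((bm_shz η hs).comp (measurable_pt (η + γ))).integrable (law a₀ b)
      simpa only [shz_pt η s _ h0] using this
    have := integral_mono_ae (μ := law a₀ b) (integrable_const (γ * ‖zz s a₀ b‖ ^ 2))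
      (i3.const_mul 9) ((law_ae a₀ hb).mono fun a ha => by
        have h4 := zref_le hs h0 hγ ha
        have h5 : ‖zz s a₀ b‖ ^ 2 ≤ (3 * ‖zz s a γ‖) ^ 2 := by gcongr
        have := mul_le_mul_of_nonneg_left h5 h0
        show _ ≤ _
        nlinarith)
    simpa using this
  have h4 : ‖β‖ * ‖∫ a, (zz s a 0 - zz s a γ) ∂law a₀ b‖ ≤
      9 * C * (‖β‖ * ∫ t, shz η s t ∂lift (η + γ) (law a₀ b)) := by
    calc _ ≤ ‖β‖ * (C * (γ * ‖zz s a₀ b‖ ^ 2)) := by rw [← mul_assoc C]; gcongr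
      _ ≤ ‖β‖ * (C * (9 * ∫ t, shz η s t ∂lift (η + γ) (law a₀ b))) := by gcongr
      _ = _ := by ring
  linarith

end Crest.Agent.N334.Sw
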