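import Crest.Agent.N334.Sw.Flow
import Crest.Agent.N334.Sw.Step

/-!
# Row 334, S0519 SWITCH (helper45): averages of functionals of the port matrix, one-site drift
-/

set_option autoImplicit false

open MeasureTheory Finset
open scoped ENNReal

noncomputable section

namespace Crest.Agent.N334.Sw

open G I

theorem measurable_Gr (L : G.Lat) (x y : L.X) : Measurable fun w : L.X → ℂ => L.Gr w x y := by
  have hc : Continuous fun w : L.X → ℂ => L.A.map Complex.ofReal + Matrix.diagonal w :=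
    continuous_const.add (Continuous.matrix_diagonal continuous_id)
  have h1 := hc.matrix_det.measurable.inv
  have h2 : Measurable fun w : L.X → ℂ =>
      (L.A.map Complex.ofReal + Matrix.diagonal w).adjugate x y :=
    (hc.matrix_adjugate.matrix_elem x y).measurable
  simp only [G.Lat.Gr, Matrix.inv_def, Ring.inverse_eq_inv', Matrix.smul_apply, smul_eq_mul]
  exact h1.mul h2

theorem measurable_Kw (L : G.Lat) (E η : ℝ) : Measurable (Kw L E η) := by
  refine measurable_pi_lambda _ fun p => measurable_pi_lambda _ fun q => ?_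
  have h1 : ∀ p : L.P, Measurable fun w : L.X → ℂ => L.str η (fun x => ga η (w x)) p := fun p => by
    unfold G.Lat.str
    split_ifs
    · fun_prop
    · fun_prop
  have h2 : Measurable fun w : L.X → ℂ => L.wv E η (fun x => ga η (w x)) fun x => (w x).re := by
    refine measurable_pi_lambda _ fun x => ?_
    unfold G.Lat.wv
    fun_prop
  have h3 := (measurable_Gr L p.1 q.1).comp h2
  have h4 := h1 p
  have h5 := h1 q
  exact ((measurable_const.mul (Complex.measurable_ofReal.comp h4.sqrt)).mul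
    (Complex.measurable_ofReal.comp h5.sqrt)).mul h3

section Iw
variable {L : G.Lat} {h : ℝ} (lab : Lab L.X h) (E : ℝ) {η : ℝ} {F F' : L.Mat → ℝ}

theorem bm_Kw (hη : 0 < η) (hF : Nice F) : BM fun w => F (Kw L E η w) :=
  hF.bm (measurable_Kw L E η) (port_Kw L E hη)

theorem Iw_nonneg (hη : 0 < η) (μ : L.X → Measure ℂ) (h0 : ∀ K, IsPort K → 0 ≤ F K) :
    0 ≤ Iw lab E η μ F := integral_nonneg fun w => h0 _ (port_Kw L E hη w)

theorem Iw_mul (μ : L.X → Measure ℂ) (r : ℝ) (F : L.Mat → ℝ) :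
    Iw lab E η μ (fun K => r * F K) = r * Iw lab E η μ F := integral_const_mul _ _

variable (hh : 0 < h) (hη : 0 < η) (μ : L.X → Measure ℂ) [∀ x, IsProbabilityMeasure (μ x)]
include hh hη

theorem integrable_Kw (hF : Nice F) : Integrable (fun w => F (Kw L E η w)) (lab.ens η μ) := by
  have := lab.isProb_ens hh η μ
  exact (bm_Kw E hη hF).integrable _

theorem Iw_mono (hF : Nice F) (hF' : Nice F') (H : ∀ K, IsPort K → F K ≤ F' K) :
    Iw lab E η μ F ≤ Iw lab E η μ F' :=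
  integral_mono (integrable_Kw lab E hh hη μ hF) (integrable_Kw lab E hh hη μ hF')
    fun w => H _ (port_Kw L E hη w)

theorem Iw_add (hF : Nice F) (hF' : Nice F') :
    Iw lab E η μ (fun K => F K + F' K) = Iw lab E η μ F + Iw lab E η μ F' :=
  integral_add (integrable_Kw lab E hh hη μ hF) (integrable_Kw lab E hh hη μ hF')

theorem Iw_sum {ι : Type} (s : Finset ι) {F : ι → L.Mat → ℝ} (hF : ∀ i ∈ s, Nice (F i)) :
    Iw lab E η μ (fun K => ∑ i ∈ s, F i K) = ∑ i ∈ s, Iw lab E η μ (F i) :=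
  integral_finset_sum s fun i hi => integrable_Kw lab E hh hη μ (hF i hi)

omit hη in
theorem Iw_const (r : ℝ) : Iw lab E η μ (fun _ => r) = r := by
  have := lab.isProb_ens hh η μ
  simp [Iw]

theorem Iw_update_mix (y : L.X) (ν₀ ν₁ : Measure ℂ) [IsProbabilityMeasure ν₀]
    [IsProbabilityMeasure ν₁] {p : ℝ} (h0 : 0 ≤ p) (h1 : p ≤ 1) (hF : Nice F) :
    Iw lab E η (Function.update μ y (mix p ν₀ ν₁)) F =
      (1 - p) * Iw lab E η (Function.update μ y ν₀) F +
        p * Iw lab E η (Function.update μ y ν₁) F :=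
  integral_update_mix lab hh η μ y ν₀ ν₁ h0 h1 (bm_Kw E hη hF)

/-- conditioning on the first state of a mixture -/
theorem Iw_open_le {y : L.X} {ν₀ ν₁ : Measure ℂ} [IsProbabilityMeasure ν₀]
    [IsProbabilityMeasure ν₁] {p : ℝ} (h0 : 0 ≤ p) (h1 : p ≤ 1) (hy : μ y = mix p ν₀ ν₁)
    (hF : Nice F) (hF0 : ∀ K, IsPort K → 0 ≤ F K) :
    (1 - p) * Iw lab E η (Function.update μ y ν₀) F ≤ Iw lab E η μ F := by
  have h2 := Iw_update_mix lab E hh hη μ y ν₀ ν₁ h0 h1 hF
  rw [← hy, Function.update_eq_self] at h2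
  have := mul_nonneg h0 (Iw_nonneg lab E hη (Function.update μ y ν₁) hF0)
  linarith

/-- one-site drift in the ensemble -/
theorem Iw_step (y : L.X) {ν₀ ν₁ κ₁ κ₂ : Measure ℂ} [IsProbabilityMeasure ν₀]
    [IsProbabilityMeasure ν₁] [IsProbabilityMeasure κ₁] [IsProbabilityMeasure κ₂]
    {Ψ X Y : L.Mat → ℝ} (hΨ : Nice Ψ) (hX : Nice X) (hY : Nice Y)
    (hX0 : ∀ K, IsPort K → 0 ≤ X K) (hY0 : ∀ K, IsPort K → 0 ≤ Y K) {C₁ C₂ : ℝ} (h₁ : 0 ≤ C₁)
    (h₂ : 0 ≤ C₂) (hL : Loc ((y, true) : L.P) Ψ X Y) (hS : Step η ν₀ ν₁ C₁ κ₁ C₂ κ₂) :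
    Iw lab E η (Function.update μ y ν₁) Ψ ≤ Iw lab E η (Function.update μ y ν₀) Ψ +
      C₁ * Iw lab E η (Function.update μ y κ₁) X + C₂ * Iw lab E η (Function.update μ y κ₂) Y := by
  refine ens_step lab hh η μ y ν₀ ν₁ κ₁ κ₂ (bm_Kw E hη hΨ) (bm_Kw E hη hX) (bm_Kw E hη hY)
    (fun w => hX0 _ (port_Kw L E hη w)) (fun w => hY0 _ (port_Kw L E hη w)) h₁ h₂ fun w => ?_
  obtain ⟨c, hc⟩ := Kw_update L E hη w y
  obtain ⟨β, b, hb, hP, hβ, hb'⟩ := hL c
  have hB : ∀ {F : L.Mat → ℝ}, Nice F → BM fun t : ℂ => F (c.K t.re (ga η t)) := fun hF => by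
    have := (bm_Kw E hη hF).comp (g := fun t : ℂ => Function.update w y t) (measurable_update w)
    simpa only [hc] using this
  have h1 := hS c.s β b _ c.s_pos hb (hB hΨ) hP
  have h2 : ‖β‖ * ∫ t, shz η c.s t ∂κ₁ ≤ ∫ t, X (c.K t.re (ga η t)) ∂κ₁ := by
    rw [← integral_const_mul]
    exact integral_mono (((bm_shz η c.s_pos).const_mul _).integrable _) ((hB hX).integrable _)
      fun t => hβ _ _ (ga_nonneg η t)
  have h3 : b * ∫ t, shz η c.s t ∂κ₂ ≤ ∫ t, Y (c.K t.re (ga η t)) ∂κ₂ := by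
    rw [← integral_const_mul]
    exact integral_mono (((bm_shz η c.s_pos).const_mul _).integrable _) ((hB hY).integrable _)
      fun t => hb' _ _ (ga_nonneg η t)
  simp only [hc]
  have := mul_le_mul_of_nonneg_left h2 h₁
  have := mul_le_mul_of_nonneg_left h3 h₂
  linarith

/-- crude one-site bound -/
theorem Iw_crude (y : L.X) {ν₀ ν₁ : Measure ℂ} [IsProbabilityMeasure ν₀]
    [IsProbabilityMeasure ν₁] {Ψ : L.Mat → ℝ} (hΨ : Nice Ψ) {M δ : ℝ} (hδ : 0 ≤ δ)
    (hM : ∀ K, IsPort K → |Ψ K| ≤ M)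
    (H : ∀ F : ℂ → ℝ, Measurable F → (∀ t, |F t| ≤ M) → ∫ t, F t ∂ν₁ - ∫ t, F t ∂ν₀ ≤ δ) :
    Iw lab E η (Function.update μ y ν₁) Ψ ≤ Iw lab E η (Function.update μ y ν₀) Ψ + δ := by
  have := isProb_update μ y ν₀
  have := lab.isProb_ens hh η (Function.update μ y ν₀)
  have h1 := ens_step lab hh η μ y ν₀ ν₁ ν₀ ν₀ (bm_Kw E hη hΨ) (BM.const 1) (BM.const 1)
    (fun _ => zero_le_one) (fun _ => zero_le_one) hδ le_rfl fun w => by
      have := H (fun t => Ψ (Kw L E η (Function.update w y t)))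
        ((bm_Kw E hη hΨ).comp (g := fun t : ℂ => Function.update w y t) (measurable_update w)).meas
        fun t => hM _ (port_Kw L E hη _)
      simp only [integral_const, probReal_univ, smul_eq_mul, mul_one, zero_mul, add_zero]
      linarith
  simpa [Iw] using h1

/-- Gronwall when only the sites of `S` move -/
theorem Iw_flow (S : Finset L.X) (ν₀ ν₁ : L.X → Measure ℂ) [∀ x, IsProbabilityMeasure (ν₀ x)]
    [∀ x, IsProbabilityMeasure (ν₁ x)] {Ψ : L.Mat → ℝ} (hΨ : Nice Ψ) {a b : ℝ} (ha : 0 ≤ a)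
    (hab : a ≤ b) (hb : b ≤ 1) {R r : ℝ → ℝ} (hR : ContinuousOn R (Set.Icc a b))
    (hR' : ∀ p ∈ Set.Ioo a b, HasDerivAt R (r p) p)
    (H : ∀ p ∈ Set.Ioo a b, ∑ y ∈ S,
      (Iw lab E η (Function.update (rep S μ fun x => mix p (ν₀ x) (ν₁ x)) y (ν₁ y)) Ψ -
        Iw lab E η (Function.update (rep S μ fun x => mix p (ν₀ x) (ν₁ x)) y (ν₀ y)) Ψ) ≤
      r p * Iw lab E η (rep S μ fun x => mix p (ν₀ x) (ν₁ x)) Ψ) :
    Iw lab E η (rep S μ fun x => mix b (ν₀ x) (ν₁ x)) Ψ ≤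
      Real.exp (R b - R a) * Iw lab E η (rep S μ fun x => mix a (ν₀ x) (ν₁ x)) Ψ := by
  have p0 : ∀ x, IsProbabilityMeasure (rep S μ ν₀ x) := fun x => by
    unfold rep; split_ifs <;> infer_instance
  have p1 : ∀ x, IsProbabilityMeasure (rep S μ ν₁ x) := fun x => by
    unfold rep; split_ifs <;> infer_instance
  have e : ∀ p, 0 ≤ p → p ≤ 1 → (fun x => mix p (rep S μ ν₀ x) (rep S μ ν₁ x)) =
      rep S μ fun x => mix p (ν₀ x) (ν₁ x) := fun p h0 h1 => by
    funext x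
    unfold rep
    split_ifs
    · rfl
    · exact mix_self h0 h1 _
  have h1 := flow lab hh η (rep S μ ν₀) (rep S μ ν₁) (bm_Kw E hη hΨ) ha hab hb hR hR' fun p hp => by
    rw [e p (ha.trans hp.1.le) (hp.2.le.trans hb)]
    refine le_trans (le_of_eq ?_) (H p hp)
    rw [← sum_subset (subset_univ S) fun y _ hy => by simp [rep, hy]]
    exact sum_congr rfl fun y hy => by simp [rep, hy, Iw]
  rwa [e a ha (hab.trans hb), e b (ha.trans hab) hb] at h1

end Iw

end Crest.Agent.N334.Sw
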