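import Crest.Agent.N334.Sw.Exp

/-!
# Row 334, S0519 SWITCH (helper45): one-site property of the tempered energies
-/

set_option autoImplicit false

open MeasureTheory Finset Complex
open scoped ComplexConjugate

noncomputable section

namespace Crest.Agent.N334.Sw

open G I

theorem pow_tangent {x y : ℝ} (hx : 0 ≤ x) (hy : 0 ≤ y) (n : ℕ) :
    (n + 1) * y ^ n * (x - y) ≤ x ^ (n + 1) - y ^ (n + 1) := by
  induction n with
  | zero => simp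
  | succ n ih =>
    have h1 := mul_le_mul_of_nonneg_left ih hx
    have h2 : 0 ≤ (n + 1 : ℝ) * y ^ n * (x - y) ^ 2 := by positivity
    push_cast
    rw [pow_succ x (n + 1), pow_succ y (n + 1), pow_succ y n] at *
    nlinarith

theorem pow_lip {x y X l : ℝ} (hx : 0 ≤ x) (hy : 0 ≤ y) (hxX : x ≤ X) (hyX : y ≤ X) (hl : l ≤ X)
    (hl0 : 0 ≤ l) (n : ℕ) : l * |x ^ n - y ^ n| ≤ n * X ^ n * |x - y| := by
  rcases n with _ | n
  · simp
  · have h1 := abs_pow_sub_pow_le x y (n + 1)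
    rw [abs_of_nonneg hx, abs_of_nonneg hy, Nat.add_sub_cancel] at h1
    have h2 : max x y ^ n ≤ X ^ n := pow_le_pow_left₀ (le_max_of_le_left hx) (max_le hxX hyX) n
    have hX : 0 ≤ X := hx.trans hxX
    calc _ ≤ X * (|x - y| * ((n + 1 : ℕ) : ℝ) * X ^ n) := by
          refine mul_le_mul hl (h1.trans ?_) (abs_nonneg _) hX
          gcongr
      _ = _ := by rw [pow_succ]; ring

theorem pow_le_exp_mul {x X l d : ℝ} (hl : 0 < l) (hx : l ≤ x) (hd : 0 ≤ d) (hX0 : 0 ≤ X)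
    (hX : X ≤ x + d) (n : ℕ) : X ^ n ≤ Real.exp (n * d / l) * x ^ n := by
  have hx0 : 0 < x := hl.trans_le hx
  have h1 : X ≤ Real.exp (d / l) * x := by
    have h2 : d ≤ d / l * x := by
      rw [div_mul_eq_mul_div, le_div_iff₀ hl]; exact mul_le_mul_of_nonneg_left hx hd
    have h3 := mul_le_mul_of_nonneg_right (Real.add_one_le_exp (d / l)) hx0.le
    nlinarith
  calc X ^ n ≤ (Real.exp (d / l) * x) ^ n := pow_le_pow_left₀ hX0 h1 n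
    _ = _ := by rw [mul_pow, ← Real.exp_nat_mul, mul_div_assoc]

section cav
variable {P : Type} [Fintype P] [DecidableEq P] {y : P} (c : Cav y)

theorem norm_conj_row (p : P) : ‖∑ q, conj (c.K0 p q) * c.rho q‖ ≤ 2 * ‖c.rho p‖ := by
  have h1 : ∑ q, conj (c.K0 p q) * c.rho q = conj (c.rho p - conj (c.rho p)) := by
    rw [← c.fix p, map_sum]
    simp
  rw [h1, Complex.norm_conj]
  have := norm_sub_le (c.rho p) (conj (c.rho p))
  rw [Complex.norm_conj] at this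
  linarith

theorem th_sq_le (u : P → ℝ) :
    ‖∑ p, ∑ q, conj (c.K0 p q) * c.rho p * c.rho q * (((u p - u q) ^ 2 : ℝ) : ℂ)‖ ≤
      8 * ∑ p, ‖c.rho p‖ ^ 2 * u p ^ 2 := by
  set A : P → ℂ := fun p => ∑ q, conj (c.K0 p q) * c.rho q with hA
  set B : P → ℂ := fun p => ∑ q, c.K0 p q * conj (c.rho q * u q) with hB
  have e1 : ∑ p, ∑ q, conj (c.K0 p q) * c.rho p * c.rho q * ((u q : ℂ) ^ 2) =
      ∑ p, c.rho p * (u p : ℂ) ^ 2 * A p := by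
    rw [sum_comm]
    refine sum_congr rfl fun p _ => ?_
    rw [hA, mul_sum]
    exact sum_congr rfl fun q _ => by rw [c.port0.symm q p]; ring
  have e : ∑ p, ∑ q, conj (c.K0 p q) * c.rho p * c.rho q * (((u p - u q) ^ 2 : ℝ) : ℂ) =
      ∑ p, (2 * (c.rho p * (u p : ℂ) ^ 2 * A p) - 2 * (c.rho p * u p * conj (B p))) := by
    have e2 : ∀ p, ∑ q, conj (c.K0 p q) * c.rho p * c.rho q * (((u p - u q) ^ 2 : ℝ) : ℂ) =
        c.rho p * (u p : ℂ) ^ 2 * A p - 2 * (c.rho p * u p * conj (B p)) +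
          ∑ q, conj (c.K0 p q) * c.rho p * c.rho q * ((u q : ℂ) ^ 2) := fun p => by
      simp only [hA, hB, map_sum, map_mul, Complex.conj_conj, Complex.conj_ofReal, mul_sum]
      rw [← sum_sub_distrib, ← sum_add_distrib]
      exact sum_congr rfl fun q _ => by push_cast; ring
    simp only [e2]
    rw [sum_add_distrib, e1, ← sum_add_distrib]
    exact sum_congr rfl fun p _ => by ring
  have hK := c.port0.K_op fun q => conj (c.rho q * u q)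
  have hn : ∀ q, ‖conj (c.rho q * u q)‖ ^ 2 = ‖c.rho q‖ ^ 2 * u q ^ 2 := fun q => by
    rw [Complex.norm_conj, norm_mul, mul_pow, Complex.norm_real, Real.norm_eq_abs, sq_abs]
  simp only [hn] at hK
  rw [e]
  refine (norm_sum_le _ _).trans ?_
  have h1 : ∀ p, ‖2 * (c.rho p * (u p : ℂ) ^ 2 * A p) - 2 * (c.rho p * u p * conj (B p))‖ ≤
      6 * (‖c.rho p‖ ^ 2 * u p ^ 2) + ‖B p‖ ^ 2 / 2 := fun p => by
    refine (norm_sub_le _ _).trans ?_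
    simp only [norm_mul, norm_pow, Complex.norm_conj, Complex.norm_real, Real.norm_eq_abs, sq_abs,
      Complex.norm_ofNat]
    have h2 : ‖A p‖ ≤ 2 * ‖c.rho p‖ := norm_conj_row c p
    have h3 : ‖c.rho p‖ * u p ^ 2 * ‖A p‖ ≤ ‖c.rho p‖ * u p ^ 2 * (2 * ‖c.rho p‖) := by gcongr
    have h4 := sq_nonneg (‖c.rho p‖ * |u p| - ‖B p‖ / 2)
    have h5 : (‖c.rho p‖ * |u p|) ^ 2 = ‖c.rho p‖ ^ 2 * u p ^ 2 := by rw [mul_pow, sq_abs]
    nlinarith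
  refine (sum_le_sum fun p _ => h1 p).trans ?_
  rw [sum_add_distrib, ← mul_sum, ← sum_div]
  linarith

theorem V_wt {ι : Type} [Fintype ι] (Φ : ι → P → ℝ) :
    c.V (wt Φ) = ∑ j, ∑ p, ‖c.rho p‖ ^ 2 * (Φ j p - Φ j y) ^ 2 := by
  simp only [Cav.V, wt, mul_sum]
  rw [sum_comm]
  exact sum_congr rfl fun j _ => sum_congr rfl fun p _ => by ring

theorem Th_wt_le {ι : Type} [Fintype ι] (Φ : ι → P → ℝ) : ‖Th c (wt Φ)‖ ≤ 8 * c.V (wt Φ) := by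
  have e : Th c (wt Φ) = ∑ j, ∑ p, ∑ q, conj (c.K0 p q) * c.rho p * c.rho q *
      ((((Φ j p - Φ j y) - (Φ j q - Φ j y)) ^ 2 : ℝ) : ℂ) := by
    simp only [Th, wt, Complex.ofReal_sum, mul_sum, sub_sub_sub_cancel_right]
    rw [sum_comm (s := (univ : Finset ι))]
    exact sum_congr rfl fun p _ => sum_comm
  rw [e, V_wt, mul_sum]
  exact (norm_sum_le _ _).trans (sum_le_sum fun j _ => th_sq_le c _)

theorem Bb_wt_le {ι : Type} [Fintype ι] (Φ : ι → P → ℝ) :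
    Bb c (wt Φ) ≤ 2 * c.s.im * c.V (wt Φ) := by
  have e : Bb c (wt Φ) = ∑ j, ∑ p, ∑ q, ‖c.rho p‖ ^ 2 * ‖c.rho q‖ ^ 2 *
      ((Φ j p - Φ j y) - (Φ j q - Φ j y)) ^ 2 := by
    simp only [Bb, wt, mul_sum, sub_sub_sub_cancel_right]
    rw [sum_comm (s := (univ : Finset ι))]
    exact sum_congr rfl fun p _ => sum_comm
  rw [e, V_wt, mul_sum]
  refine sum_le_sum fun j _ => ?_
  set u : P → ℝ := fun p => Φ j p - Φ j y
  have e2 : ∑ p, ∑ q, ‖c.rho p‖ ^ 2 * ‖c.rho q‖ ^ 2 * (u p - u q) ^ 2 =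
      (∑ p, ‖c.rho p‖ ^ 2 * u p ^ 2) * (∑ p, ‖c.rho p‖ ^ 2) +
      (∑ p, ‖c.rho p‖ ^ 2) * (∑ p, ‖c.rho p‖ ^ 2 * u p ^ 2) -
      2 * ((∑ p, ‖c.rho p‖ ^ 2 * u p) * ∑ p, ‖c.rho p‖ ^ 2 * u p) := by
    rw [sum_mul_sum, sum_mul_sum, sum_mul_sum]
    simp only [mul_sum, ← sum_add_distrib, ← sum_sub_distrib]
    exact sum_congr rfl fun p _ => sum_congr rfl fun q _ => by ring
  rw [e2, c.im_s]
  nlinarith [mul_self_nonneg (∑ p, ‖c.rho p‖ ^ 2 * u p)]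

/-- the variable part of the energy -/
def xi (w : P → P → ℝ) (a γ : ℝ) : ℝ :=
  (4 * I * (Th c w - 2 * c.V w) * c.z a γ).re - (8 * c.s.im * c.V w - 4 * Bb c w) * ‖c.z a γ‖ ^ 2

variable {ι : Type} [Fintype ι] (Φ : ι → P → ℝ)

omit [DecidableEq P] in
theorem wt_nonneg (p q : P) : 0 ≤ wt Φ p q := sum_nonneg fun _ _ => sq_nonneg _

omit [Fintype P] [DecidableEq P] in
theorem wt_symm (p q : P) : wt Φ p q = wt Φ q p := sum_congr rfl fun _ _ => by ring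

omit [Fintype P] [DecidableEq P] in
theorem wt_self (p : P) : wt Φ p p = 0 := by simp [wt]

theorem En_xi (a : ℝ) {γ : ℝ} (hγ : 0 ≤ γ) :
    En (wt Φ) (c.K a γ) = En (wt Φ) c.K0 + xi c (wt Φ) a γ := by
  rw [En_K c (wt_symm Φ) (wt_self Φ y) a hγ, xi]; ring

theorem norm_b1 : ‖4 * I * (Th c (wt Φ) - 2 * c.V (wt Φ))‖ ≤ 40 * c.V (wt Φ) := by
  have h0 := V_nonneg c (wt_nonneg Φ)
  have h1 := Th_wt_le c Φ
  have h2 := norm_sub_le (Th c (wt Φ)) (2 * c.V (wt Φ))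
  simp only [norm_mul, Complex.norm_ofNat, Complex.norm_I, Complex.norm_real, Real.norm_eq_abs,
    abs_of_nonneg h0] at h2 ⊢
  linarith

theorem abs_xi_le (a : ℝ) {γ : ℝ} (hγ : 0 ≤ γ) :
    |xi c (wt Φ) a γ| ≤ 48 * c.V (wt Φ) * ‖c.z a γ‖ := by
  have h0 := V_nonneg c (wt_nonneg Φ)
  have h1 := Complex.abs_re_le_norm (4 * I * (Th c (wt Φ) - 2 * c.V (wt Φ)) * c.z a γ)
  rw [norm_mul] at h1
  have h2 := mul_le_mul_of_nonneg_right (norm_b1 c Φ) (norm_nonneg (c.z a γ))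
  have h3 := Bb_wt_le c Φ
  have h4 := Bb_nonneg c (wt_nonneg Φ)
  have h5 : c.s.im * ‖c.z a γ‖ ≤ 1 := im_mul_norm_zz c.s_pos hγ
  have h6 := norm_nonneg (c.z a γ)
  have h7 : 0 ≤ (8 * c.s.im * c.V (wt Φ) - 4 * Bb c (wt Φ)) * ‖c.z a γ‖ ^ 2 :=
    mul_nonneg (by linarith) (sq_nonneg _)
  have h8 : (8 * c.s.im * c.V (wt Φ) - 4 * Bb c (wt Φ)) * ‖c.z a γ‖ ^ 2 ≤
      8 * c.V (wt Φ) * ‖c.z a γ‖ := by
    have : 8 * c.V (wt Φ) * ‖c.z a γ‖ * (c.s.im * ‖c.z a γ‖) ≤ 8 * c.V (wt Φ) * ‖c.z a γ‖ * 1 := by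
      gcongr
    nlinarith [mul_nonneg h4 (sq_nonneg ‖c.z a γ‖)]
  rw [xi, abs_le] at *
  constructor <;> linarith [h1.1, h1.2]

theorem xi_sub (a : ℝ) {γ γ' : ℝ} (h0 : 0 ≤ γ') (h : γ' ≤ γ) :
    xi c (wt Φ) a γ' - xi c (wt Φ) a γ ≤
      (4 * I * (Th c (wt Φ) - 2 * c.V (wt Φ)) * (c.z a γ' - c.z a γ)).re ∧
    |xi c (wt Φ) a γ' - xi c (wt Φ) a γ| ≤ 56 * c.V (wt Φ) * ‖c.z a γ' - c.z a γ‖ := by
  have hV := V_nonneg c (wt_nonneg Φ)
  have h1 := Complex.abs_re_le_norm (4 * I * (Th c (wt Φ) - 2 * c.V (wt Φ)) * (c.z a γ' - c.z a γ))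
  rw [norm_mul] at h1
  have h2 := mul_le_mul_of_nonneg_right (norm_b1 c Φ) (norm_nonneg (c.z a γ' - c.z a γ))
  have h3 := Bb_wt_le c Φ
  have h4 := Bb_nonneg c (wt_nonneg Φ)
  have h5 : c.s.im * ‖c.z a γ'‖ ≤ 1 := im_mul_norm_zz c.s_pos h0
  have h6 : ‖c.z a γ‖ ≤ ‖c.z a γ'‖ := norm_zz_mono c.s_pos h0 h
  have h7 : ‖c.z a γ‖ ^ 2 ≤ ‖c.z a γ'‖ ^ 2 := sq_zz_mono c.s_pos h0 h
  have h8 := norm_sub_norm_le (c.z a γ') (c.z a γ)
  have e : xi c (wt Φ) a γ' - xi c (wt Φ) a γ =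
      (4 * I * (Th c (wt Φ) - 2 * c.V (wt Φ)) * (c.z a γ' - c.z a γ)).re -
      (8 * c.s.im * c.V (wt Φ) - 4 * Bb c (wt Φ)) * (‖c.z a γ'‖ ^ 2 - ‖c.z a γ‖ ^ 2) := by
    rw [xi, xi, mul_sub (4 * I * (Th c (wt Φ) - 2 * c.V (wt Φ))), Complex.sub_re]; ring
  have h9 : 0 ≤ (8 * c.s.im * c.V (wt Φ) - 4 * Bb c (wt Φ)) * (‖c.z a γ'‖ ^ 2 - ‖c.z a γ‖ ^ 2) :=
    mul_nonneg (by linarith) (by linarith)
  have h10 : (8 * c.s.im * c.V (wt Φ) - 4 * Bb c (wt Φ)) * (‖c.z a γ'‖ ^ 2 - ‖c.z a γ‖ ^ 2) ≤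
      16 * c.V (wt Φ) * ‖c.z a γ' - c.z a γ‖ := by
    have hs := c.s_pos
    have n1 := norm_nonneg (c.z a γ)
    have n2 := norm_nonneg (c.z a γ' - c.z a γ)
    have a1 : ‖c.z a γ'‖ ^ 2 - ‖c.z a γ‖ ^ 2 ≤ ‖c.z a γ' - c.z a γ‖ * (2 * ‖c.z a γ'‖) := by
      nlinarith
    calc _ ≤ 8 * c.s.im * c.V (wt Φ) * (‖c.z a γ' - c.z a γ‖ * (2 * ‖c.z a γ'‖)) :=
          mul_le_mul (by linarith) a1 (by linarith) (by positivity)
      _ = 16 * c.V (wt Φ) * ‖c.z a γ' - c.z a γ‖ * (c.s.im * ‖c.z a γ'‖) := by ring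
      _ ≤ 16 * c.V (wt Φ) * ‖c.z a γ' - c.z a γ‖ * 1 := by gcongr
      _ = _ := mul_one _
  rw [e, abs_le] at *
  refine ⟨by linarith, ?_, ?_⟩ <;> linarith [h1.1, h1.2]

variable {Φ} {D : ℝ}

theorem V_z_le (hD : ∀ a b, wt Φ a b ≤ D) (a : ℝ) {γ : ℝ} (hγ : 0 ≤ γ) :
    c.V (wt Φ) * ‖c.z a γ‖ ≤ D := by
  have hD0 : 0 ≤ D := (wt_self Φ y).symm.le.trans (hD y y)
  have h5 : c.s.im * ‖c.z a γ‖ ≤ 1 := im_mul_norm_zz c.s_pos hγ
  calc _ ≤ D * c.s.im * ‖c.z a γ‖ := mul_le_mul_of_nonneg_right (V_le c hD) (norm_nonneg _)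
    _ = D * (c.s.im * ‖c.z a γ‖) := by ring
    _ ≤ D * 1 := by gcongr
    _ = D := mul_one D

theorem abs_xi_le' (hD : ∀ a b, wt Φ a b ≤ D) (a : ℝ) {γ : ℝ} (hγ : 0 ≤ γ) :
    |xi c (wt Φ) a γ| ≤ 48 * D := by
  have := abs_xi_le c Φ a hγ
  have := V_z_le c hD a hγ
  linarith

theorem xi_second (hD : ∀ a b, wt Φ a b ≤ D) (a : ℝ) {γ γ' : ℝ} (h0 : 0 ≤ γ') (h : γ' ≤ γ) :
    |xi c (wt Φ) a γ'| * |xi c (wt Φ) a γ' - xi c (wt Φ) a γ| ≤
      3136 * (D * c.V (wt Φ)) * (c.z a γ' - c.z a γ).im +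
        5824 * (D * c.V (wt Φ)) * (γ * ‖c.z a γ‖ ^ 2) := by
  have hγ := h0.trans h
  have hD0 : 0 ≤ D := (wt_self Φ y).symm.le.trans (hD y y)
  have hV := V_nonneg c (wt_nonneg Φ)
  have h1 := abs_xi_le c Φ a hγ
  have h2 := (xi_sub c Φ a h0 h).2
  have h3 : ‖c.z a γ' - c.z a γ‖ = (γ - γ') * ‖c.z a γ‖ * ‖c.z a γ'‖ := norm_zz_sub c.s_pos h0 h
  have h4 : c.s.im * ‖c.z a γ' - c.z a γ‖ ^ 2 ≤ (c.z a γ' - c.z a γ).im + γ * ‖c.z a γ‖ ^ 2 :=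
    im_norm_sub_sq_le c.s_pos h0 h
  have h5 := V_z_le c hD a h0
  have h6 := V_le c hD
  set d := |xi c (wt Φ) a γ' - xi c (wt Φ) a γ| with hd
  have hd0 : 0 ≤ d := abs_nonneg _
  have h7 : |xi c (wt Φ) a γ'| ≤ |xi c (wt Φ) a γ| + d := by
    have := abs_add_le (xi c (wt Φ) a γ) (xi c (wt Φ) a γ' - xi c (wt Φ) a γ)
    rwa [add_sub_cancel] at this
  have n1 := norm_nonneg (c.z a γ)
  have n2 := norm_nonneg (c.z a γ')
  have a1 : |xi c (wt Φ) a γ| * d ≤ 2688 * (D * c.V (wt Φ)) * (γ * ‖c.z a γ‖ ^ 2) := by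
    calc _ ≤ 48 * c.V (wt Φ) * ‖c.z a γ‖ * (56 * c.V (wt Φ) * ‖c.z a γ' - c.z a γ‖) := by gcongr
      _ = 2688 * ((c.V (wt Φ) * ‖c.z a γ'‖) * c.V (wt Φ)) * ((γ - γ') * ‖c.z a γ‖ ^ 2) := by
          rw [h3]; ring
      _ ≤ _ := by gcongr; linarith
  have a2 : d * d ≤ 3136 * (D * c.V (wt Φ)) * ((c.z a γ' - c.z a γ).im + γ * ‖c.z a γ‖ ^ 2) := by
    calc _ ≤ 56 * c.V (wt Φ) * ‖c.z a γ' - c.z a γ‖ * (56 * c.V (wt Φ) * ‖c.z a γ' - c.z a γ‖) := by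
          gcongr
      _ = 3136 * (c.V (wt Φ) * c.V (wt Φ)) * ‖c.z a γ' - c.z a γ‖ ^ 2 := by ring
      _ ≤ 3136 * (D * c.s.im * c.V (wt Φ)) * ‖c.z a γ' - c.z a γ‖ ^ 2 := by gcongr
      _ = 3136 * (D * c.V (wt Φ)) * (c.s.im * ‖c.z a γ' - c.z a γ‖ ^ 2) := by ring
      _ ≤ _ := by gcongr
  have a3 := mul_le_mul_of_nonneg_right h7 hd0
  nlinarith

end cav

theorem locT : ∃ C : ℝ, 1 ≤ C ∧ ∀ (P : Type) [Fintype P] [DecidableEq P] (y : P)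
    (ι : Type) [Fintype ι] (Φ : ι → P → ℝ) (D lam : ℝ) (p : ℕ), 1 ≤ p → 0 < lam →
    (∀ a b, wt Φ a b ≤ D) → C * ((p - 1) * D) ≤ lam →
    Loc y (fun K => (lam + En (wt Φ) K) ^ p)
      (fun K => C * p * ((lam + En (wt Φ) K) ^ (p - 1) * Gam (wt Φ) K y))
      (fun K => C * p * ((p - 1) * D / lam) *
        ((lam + En (wt Φ) K) ^ (p - 1) * Gam (wt Φ) K y)) := by
  refine ⟨5000, by norm_num, fun P _ _ y ι _ Φ D lam p hp hl hD hC c => ?_⟩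
  obtain ⟨n, rfl⟩ : ∃ n, p = n + 1 := ⟨p - 1, by omega⟩
  simp only [Nat.add_sub_cancel, Nat.cast_add, Nat.cast_one, add_sub_cancel_right] at hC ⊢
  have hD0 : 0 ≤ D := (wt_self Φ y).symm.le.trans (hD y y)
  have hV := V_nonneg c (wt_nonneg Φ)
  set V := c.V (wt Φ) with hVd
  set x0 := lam + En (wt Φ) c.K0 with hx0
  have hx0l : lam ≤ x0 := le_add_of_nonneg_right (En_nonneg (wt_nonneg Φ) _)
  set X := x0 + 48 * D with hX
  have hXl : lam ≤ X := by linarith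
  have hX0 : 0 ≤ X := hl.le.trans hXl
  set t := n * D / lam with ht
  have ht0 : 0 ≤ t := by positivity
  have ht1 : 5000 * t ≤ 1 := by rw [ht, ← mul_div_assoc, div_le_one hl]; exact hC
  set k := (n + 1) * X ^ n * t * V with hk
  have hk0 : 0 ≤ k := by positivity
  have hx : ∀ a γ, 0 ≤ γ → lam + En (wt Φ) (c.K a γ) = x0 + xi c (wt Φ) a γ := fun a γ hγ => by
    rw [En_xi c Φ a hγ, hx0]; ring
  have hxl : ∀ a γ, lam ≤ lam + En (wt Φ) (c.K a γ) := fun a γ =>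
    le_add_of_nonneg_right (En_nonneg (wt_nonneg Φ) _)
  have hX3 : ∀ a γ, 0 ≤ γ → X ^ n ≤ 3 * (lam + En (wt Φ) (c.K a γ)) ^ n := fun a γ hγ => by
    have h1 := abs_le.1 (abs_xi_le' c hD a hγ)
    have h2 := pow_le_exp_mul (X := X) (d := 96 * D) hl (hxl a γ) (by positivity) hX0
      (by rw [hx a γ hγ]; linarith [h1.1]) n
    have h3 : Real.exp (n * (96 * D) / lam) ≤ 3 := by
      have : n * (96 * D) / lam ≤ 1 := by
        have : n * (96 * D) / lam = 96 * t := by rw [ht]; ring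
        linarith
      exact (Real.exp_le_exp.2 this).trans (Real.exp_one_lt_d9.le.trans (by norm_num))
    have h4 : 0 ≤ (lam + En (wt Φ) (c.K a γ)) ^ n := pow_nonneg (hl.le.trans (hxl a γ)) n
    exact h2.trans (by gcongr)
  have hG : ∀ a γ, 0 ≤ γ → Gam (wt Φ) (c.K a γ) y = 4 * (V * (γ * ‖c.z a γ‖ ^ 2)) :=
    fun a γ hγ => by rw [c.Gam_y a γ hγ (wt_self Φ y)]; ring
  refine ⟨(((n + 1) * x0 ^ n : ℝ) : ℂ) * (4 * I * (Th c (wt Φ) - 2 * V)) -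
    ((3136 * k : ℝ) : ℂ) * I, 5824 * k, by positivity, fun a γ γ' h0 h => ?_, fun a γ hγ => ?_,
    fun a γ hγ => ?_⟩
  · have hγ := h0.trans h
    show (lam + En (wt Φ) (c.K a γ')) ^ (n + 1) ≤ (lam + En (wt Φ) (c.K a γ)) ^ (n + 1) +
      (_ * (c.z a γ' - c.z a γ)).re + _ * (γ * ‖c.z a γ‖ ^ 2)
    have e : (((((n + 1) * x0 ^ n : ℝ) : ℂ) * (4 * I * (Th c (wt Φ) - 2 * V)) -
        ((3136 * k : ℝ) : ℂ) * I) * (c.z a γ' - c.z a γ)).re =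
        (n + 1) * x0 ^ n * (4 * I * (Th c (wt Φ) - 2 * V) * (c.z a γ' - c.z a γ)).re +
          3136 * k * (c.z a γ' - c.z a γ).im := by
      rw [sub_mul, Complex.sub_re, mul_assoc, Complex.re_ofReal_mul,
        mul_assoc ((3136 * k : ℝ) : ℂ) I, Complex.re_ofReal_mul]
      simp only [Complex.I_mul_re]
      ring
    rw [e]
    have b1 := hxl a γ
    have b2 := hxl a γ'
    have c1 := abs_le.1 (abs_xi_le' c hD a h0)
    have h1 := pow_tangent (hl.le.trans b1) (hl.le.trans b2) n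
    have h2 := pow_lip (X := X) (hl.le.trans b2) (hl.le.trans hx0l)
      (by rw [hx a γ' h0]; linarith [c1.2]) (by linarith) hXl hl.le n
    have h3 := (xi_sub c Φ a h0 h).1
    have h4 := xi_second c hD a h0 h
    rw [hx a γ hγ, hx a γ' h0] at *
    set u := xi c (wt Φ) a γ
    set u' := xi c (wt Φ) a γ'
    rw [add_sub_cancel_left] at h2
    have h5 : |(x0 + u') ^ n - x0 ^ n| ≤ n * X ^ n / lam * |u'| := by
      rw [div_mul_eq_mul_div, le_div_iff₀ hl, mul_comm]; exact h2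
    have h6 : ((x0 + u') ^ n - x0 ^ n) * (u' - u) ≤ n * X ^ n / lam * (|u'| * |u' - u|) := by
      refine (le_abs_self _).trans ?_
      rw [abs_mul, ← mul_assoc]
      gcongr
    have h7 : n * X ^ n / lam * (|u'| * |u' - u|) ≤ n * X ^ n / lam * (3136 * (D * V) *
        (c.z a γ' - c.z a γ).im + 5824 * (D * V) * (γ * ‖c.z a γ‖ ^ 2)) := by gcongr
    have h8 : (n + 1) * (n * X ^ n / lam * (3136 * (D * V) * (c.z a γ' - c.z a γ).im +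
        5824 * (D * V) * (γ * ‖c.z a γ‖ ^ 2))) =
        3136 * k * (c.z a γ' - c.z a γ).im + 5824 * k * (γ * ‖c.z a γ‖ ^ 2) := by
      rw [hk, ht]; ring
    have h9 := mul_le_mul_of_nonneg_left (h6.trans h7) (by positivity : (0 : ℝ) ≤ n + 1)
    have h10 := mul_le_mul_of_nonneg_left h3
      (mul_nonneg (by positivity : (0 : ℝ) ≤ n + 1) (pow_nonneg (hl.le.trans hx0l) n))
    nlinarith
  · have h1 : ‖(((n + 1) * x0 ^ n : ℝ) : ℂ) * (4 * I * (Th c (wt Φ) - 2 * V)) -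
        ((3136 * k : ℝ) : ℂ) * I‖ ≤ 41 * ((n + 1) * X ^ n * V) := by
      refine (norm_sub_le _ _).trans ?_
      have h2 : 0 ≤ x0 := hl.le.trans hx0l
      rw [norm_mul, norm_mul _ I, Complex.norm_I, Complex.norm_real, Complex.norm_real,
        Real.norm_of_nonneg (by positivity), Real.norm_of_nonneg (by positivity), mul_one]
      have h3 : (n + 1) * x0 ^ n * ‖4 * I * (Th c (wt Φ) - 2 * V)‖ ≤ (n + 1) * X ^ n * (40 * V) := by
        have := norm_b1 c Φ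
        have : x0 ≤ X := by linarith
        gcongr
      have h4 : (n + 1) * X ^ n * V * (3136 * t) ≤ (n + 1) * X ^ n * V * 1 := by
        gcongr; linarith
      rw [hk]
      nlinarith
    have h2 := hX3 a γ hγ
    have h4 : 0 ≤ (lam + En (wt Φ) (c.K a γ)) ^ n := pow_nonneg (hl.le.trans (hxl a γ)) n
    rw [hG a γ hγ]
    calc _ ≤ 41 * ((n + 1) * (3 * (lam + En (wt Φ) (c.K a γ)) ^ n) * V) * (γ * ‖c.z a γ‖ ^ 2) := by
          refine mul_le_mul_of_nonneg_right (h1.trans ?_) (by positivity)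
          gcongr
      _ = 123 * ((n + 1) * (lam + En (wt Φ) (c.K a γ)) ^ n * (V * (γ * ‖c.z a γ‖ ^ 2))) := by ring
      _ ≤ 20000 * ((n + 1) * (lam + En (wt Φ) (c.K a γ)) ^ n * (V * (γ * ‖c.z a γ‖ ^ 2))) := by
          gcongr; norm_num
      _ = _ := by ring
  · have h2 := hX3 a γ hγ
    have h4 : 0 ≤ (lam + En (wt Φ) (c.K a γ)) ^ n := pow_nonneg (hl.le.trans (hxl a γ)) n
    rw [hG a γ hγ, hk]
    calc _ ≤ 5824 * ((n + 1) * (3 * (lam + En (wt Φ) (c.K a γ)) ^ n) * t * V) *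
          (γ * ‖c.z a γ‖ ^ 2) := by gcongr
      _ = 17472 * ((n + 1) * t * (lam + En (wt Φ) (c.K a γ)) ^ n * (V * (γ * ‖c.z a γ‖ ^ 2))) := by
          ring
      _ ≤ 20000 * ((n + 1) * t * (lam + En (wt Φ) (c.K a γ)) ^ n * (V * (γ * ‖c.z a γ‖ ^ 2))) := by
          gcongr; norm_num
      _ = _ := by ring

theorem tempT : ∃ C : ℝ, 1 ≤ C ∧ ∀ (L : G.Lat) (E η : ℝ), 0 < η →
    ∀ (ι : Type) [Fintype ι] (Φ : ι → L.P → ℝ) (D lam κ : ℝ) (p : ℕ), 1 ≤ p → 0 < lam →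
    (∀ a b, wt Φ a b ≤ D) → C * ((p - 1) * D) ≤ κ * lam →
    Temp E η (fun K : L.Mat => (lam + En (wt Φ) K) ^ (p - 1)) κ := by
  refine ⟨96, by norm_num, fun L E η hη ι _ Φ D lam κ p hp hl hD hC => ?_⟩
  obtain ⟨n, rfl⟩ : ∃ n, p = n + 1 := ⟨p - 1, by omega⟩
  simp only [Nat.add_sub_cancel, Nat.cast_add, Nat.cast_one, add_sub_cancel_right] at hC ⊢
  have hxl : ∀ K : L.Mat, lam ≤ lam + En (wt Φ) K := fun K =>
    le_add_of_nonneg_right (En_nonneg (wt_nonneg Φ) _)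
  refine ⟨((Nice.const lam).add (nice_En _)).pow n, fun K _ => pow_nonneg (hl.le.trans (hxl K)) n,
    fun w y t => ?_⟩
  obtain ⟨c, hc⟩ := Kw_update L E hη w y
  have hD0 : 0 ≤ D := (wt_self Φ (y, true)).symm.le.trans (hD _ _)
  have h0 := hc (w y)
  rw [Function.update_eq_self] at h0
  have h1 := abs_le.1 (abs_xi_le' c hD t.re (ga_nonneg η t))
  have h2 := abs_le.1 (abs_xi_le' c hD (w y).re (ga_nonneg η (w y)))
  have h3 := pow_le_exp_mul (X := lam + En (wt Φ) (Kw L E η (Function.update w y t))) (d := 96 * D)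
    hl (hxl (Kw L E η w)) (by positivity) (hl.le.trans (hxl _)) (by
      rw [hc, h0, En_xi c Φ _ (ga_nonneg η _), En_xi c Φ _ (ga_nonneg η _)]
      linarith [h1.2, h2.1]) n
  refine h3.trans (mul_le_mul_of_nonneg_right (Real.exp_le_exp.2 ?_)
    (pow_nonneg (hl.le.trans (hxl _)) n))
  rw [div_le_iff₀ hl]
  linarith

end Crest.Agent.N334.Sw
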