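import Crest.Agent.N334.Sw.Defs
import Crest.Agent.N334.G.Geo2

/-!
# Row 334, S0519 SWITCH: kernel energies of the three weights (filled by helper24)
-/

set_option autoImplicit false

open MeasureTheory Finset

noncomputable section

namespace Crest.Agent.N334.Sw

open G I

namespace Ker

theorem card_le (L : G.Lat) (c : L.X) {R : ℝ} (hR : 0 ≤ R) :
    ((univ.filter fun x => L.rx c x ≤ R).card : ℝ) ≤ 2 + R := L.ball_le c R hR

theorem sum_inv_sq (L : G.Lat) (c : L.X) {R : ℝ} (hR : 1 ≤ R) :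
    ∑ x, ((1 + L.rx c x / R) ^ 2)⁻¹ ≤ 24 * R := by
  have hR0 : 0 < R := by linarith
  have hex : ∀ x, ∃ k : ℕ, L.rx c x / R ≤ 2 ^ k := fun x =>
    (pow_unbounded_of_one_lt _ (by norm_num)).imp fun _ h => h.le
  set k : L.X → ℕ := fun x => Nat.find (hex x) with hk
  have h1 : ∀ x, ((1 + L.rx c x / R) ^ 2)⁻¹ ≤ 4 * (1 / 4) ^ k x := by
    intro x
    have h0 := div_nonneg (L.rx_nonneg c x) hR0.le
    rcases e : k x with _ | j
    · exact (inv_le_one_of_one_le₀ (by nlinarith)).trans (by norm_num)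
    · have h2 := not_le.1 (Nat.find_min (hex x) (show j < k x by omega))
      rw [pow_succ _ j, mul_comm, mul_assoc, one_div_mul_cancel (by norm_num), mul_one, one_div,
        inv_pow, show (4 : ℝ) ^ j = (2 ^ j) ^ 2 by rw [← pow_mul, mul_comm, pow_mul]; norm_num]
      gcongr; linarith
  refine (sum_le_sum fun x _ => h1 x).trans ?_
  rw [← sum_fiberwise_of_maps_to (t := range (univ.sup k + 1)) (g := k)
    (fun x hx => mem_range.2 (Nat.lt_succ_of_le (le_sup hx)))]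
  refine le_trans (sum_le_sum (g := fun j => 12 * R * (1 / 2) ^ j) fun j _ => ?_) ?_
  · rw [sum_congr rfl (g := fun _ => 4 * (1 / 4 : ℝ) ^ j) (fun x hx => by rw [(mem_filter.1 hx).2]),
      sum_const, nsmul_eq_mul]
    have h2 : ((univ.filter fun x => k x = j).card : ℝ) ≤ 2 + 2 ^ j * R := by
      refine le_trans ?_ (card_le L c (by positivity))
      refine Nat.cast_le.2 (card_le_card fun x hx => mem_filter.2 ⟨mem_univ _, ?_⟩)
      rw [← div_le_iff₀ hR0, ← (mem_filter.1 hx).2]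
      exact Nat.find_spec (hex x)
    have h3 : (1 : ℝ) ≤ 2 ^ j := one_le_pow₀ (by norm_num)
    have h4 : (2 : ℝ) ^ j * (1 / 4) ^ j = (1 / 2) ^ j := by rw [← mul_pow]; norm_num
    calc _ ≤ (3 * (2 ^ j * R)) * (4 * (1 / 4 : ℝ) ^ j) := by gcongr; nlinarith
      _ = _ := by rw [← h4]; ring
  · rw [← mul_sum]
    nlinarith [sum_geometric_two_le (univ.sup k + 1)]

theorem pow_exp {s : ℝ} (hs : 0 ≤ s) (n : ℕ) : s ^ n * Real.exp (-s) ≤ n.factorial := by
  have := Real.pow_div_factorial_le_exp s hs n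
  rw [Real.exp_neg, ← div_eq_mul_inv, div_le_iff₀ (Real.exp_pos _), mul_comm,
    ← div_le_iff₀ (by positivity)]
  exact this

theorem kx_pos (L : G.Lat) (D : ℝ) (x y : L.X) : 0 < kx L D x y := Real.exp_pos _

theorem kx_symm (L : G.Lat) (D : ℝ) (x y : L.X) : kx L D x y = kx L D y x := by
  rw [kx, kx, L.rx_symm]

/-- moments of the exponential kernel -/
theorem sum_kx (j : ℕ) : ∃ C : ℝ, 1 ≤ C ∧ ∀ (L : G.Lat) (D : ℝ), 1 ≤ D → ∀ o : L.X,
    ∑ x, kx L D o x * L.rx o x ^ j ≤ C * D ^ (2 * j + 2) := by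
  set A : ℝ := (2 * j).factorial + 2 * (2 * j + 2).factorial + (2 * j + 4).factorial with hA
  have hA1 : 1 ≤ A := by
    have : (1 : ℝ) ≤ (2 * j).factorial := by exact_mod_cast Nat.factorial_pos _
    rw [hA]; linarith [Nat.cast_nonneg (α := ℝ) (2 * j + 2).factorial,
      Nat.cast_nonneg (α := ℝ) (2 * j + 4).factorial]
  refine ⟨24 * A, by linarith, fun L D hD o => ?_⟩
  have hD0 : 0 < D := by linarith
  have h1 : ∀ x, kx L D o x * L.rx o x ^ j ≤ A * D ^ (2 * j) * ((1 + L.rx o x / D ^ 2) ^ 2)⁻¹ := by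
    intro x
    have h0 := L.rx_nonneg o x
    obtain ⟨s, hs⟩ : ∃ s, s = √(L.rx o x) / D := ⟨_, rfl⟩
    have hs0 : 0 ≤ s := by rw [hs]; positivity
    have e : L.rx o x = s ^ 2 * D ^ 2 := by rw [hs, div_pow, Real.sq_sqrt h0]; field_simp
    rw [kx, ← hs, e, mul_div_cancel_right₀ _ (by positivity), ← div_eq_mul_inv,
      le_div_iff₀ (by positivity)]
    have := add_le_add (add_le_add (pow_exp hs0 (2 * j)) (mul_le_mul_of_nonneg_left
      (pow_exp hs0 (2 * j + 2)) zero_le_two)) (pow_exp hs0 (2 * j + 4))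
    calc _ = (s ^ (2 * j) * Real.exp (-s) + 2 * (s ^ (2 * j + 2) * Real.exp (-s)) +
          s ^ (2 * j + 4) * Real.exp (-s)) * D ^ (2 * j) := by ring
      _ ≤ _ := by gcongr
  refine (sum_le_sum fun x _ => h1 x).trans ?_
  rw [← mul_sum]
  calc _ ≤ A * D ^ (2 * j) * (24 * D ^ 2) := by
        gcongr; exact sum_inv_sq L o (one_le_pow₀ hD)
    _ = _ := by ring

theorem ak_le {L : G.Lat} {k : L.X → L.X → ℝ} {w : L.P → L.P → ℝ} {v : L.X → L.X → ℝ}
    (h : ∀ o q, k o q.1 * w (o, true) q ≤ v o q.1) : Ak k w ≤ 2 * ∑ o, ∑ x, v o x := by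
  rw [Ak, mul_sum]
  refine sum_le_sum fun o _ => (sum_le_sum fun q _ => h o q).trans (le_of_eq ?_)
  simp only [Fintype.sum_prod_type, Fintype.sum_bool, two_mul, sum_add_distrib]

end Ker

open Ker

theorem ak_r2 : ∃ C : ℝ, 1 ≤ C ∧ ∀ (L : G.Lat) (D : ℝ), 1 ≤ D →
    Ak (kx L D) L.r2 ≤ C * D ^ 4 * Fintype.card L.X := by
  obtain ⟨C, hC, h⟩ := sum_kx 1
  refine ⟨2 * C, by linarith, fun L D hD => ?_⟩
  refine (ak_le (v := fun o x => kx L D o x * L.rx o x ^ 1) fun o q => by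
    rw [pow_one]; rfl).trans ?_
  have := sum_le_sum fun o (_ : o ∈ univ) => h L D hD o
  rw [sum_const, card_univ, nsmul_eq_mul] at this
  calc _ ≤ 2 * (Fintype.card L.X * (C * D ^ (2 * 1 + 2))) := by gcongr
    _ = _ := by ring

theorem ak_s4 : ∃ C : ℝ, 1 ≤ C ∧ ∀ (L : G.Lat) (D : ℝ), 1 ≤ D → ∀ m, m < L.N →
    Ak (kx L D) (L.s4 m) ≤ C * D ^ 6 / 16 ^ m * Fintype.card L.X := by
  obtain ⟨C, hC, h⟩ := sum_kx 2
  refine ⟨2 * C, by linarith, fun L D hD m hm => ?_⟩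
  refine (ak_le (v := fun o x => (16 ^ m)⁻¹ * (kx L D o x * L.rx o x ^ 2)) fun o q => ?_).trans ?_
  · rw [mul_left_comm]
    refine mul_le_mul_of_nonneg_left ((L.s4_le hm _ _).2.trans ?_) (kx_pos L D _ _).le
    rw [div_pow, ← pow_mul, mul_comm (m + 1), pow_mul, div_eq_inv_mul]
    refine mul_le_mul_of_nonneg_right (inv_anti₀ (by positivity) ?_) (sq_nonneg _)
    rw [show (4 : ℝ) ^ 2 = 16 by norm_num]
    exact pow_le_pow_right₀ (by norm_num) m.le_succ
  · have := sum_le_sum fun o (_ : o ∈ univ) => h L D hD o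
    rw [sum_const, card_univ, nsmul_eq_mul] at this
    simp only [← mul_sum]
    calc _ ≤ 2 * ((16 ^ m)⁻¹ * (Fintype.card L.X * (C * D ^ (2 * 2 + 2)))) := by gcongr
      _ = _ := by ring

theorem ak_wF : ∃ C : ℝ, 1 ≤ C ∧ ∀ (L : G.Lat) (D : ℝ), 1 ≤ D → ∀ (c : L.X) (R2 : ℝ), 1 ≤ R2 →
    Ak (kx L D) (L.wF c R2) ≤ C * D ^ 4 := by
  obtain ⟨C, hC, h⟩ := sum_kx 1
  refine ⟨192 * C, by linarith, fun L D hD c R hR => ?_⟩
  have hR0 : 0 < R := by linarith
  set f : L.X → ℝ := fun x => ((1 + L.rx c x / R) ^ 2)⁻¹ with hf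
  have hf0 : ∀ x, 0 ≤ f x := fun x => by positivity
  refine (ak_le (v := fun o x => 2 / R * (f o * (kx L D o x * L.rx o x ^ 1) +
    f x * (kx L D x o * L.rx x o ^ 1))) fun o q => ?_).trans ?_
  · rw [kx_symm L D q.1, L.rx_symm q.1, pow_one, ← add_mul, ← mul_assoc, mul_left_comm]
    refine mul_le_mul_of_nonneg_left ?_ (kx_pos L D _ _).le
    have h1 := L.rx_nonneg o q.1
    have ha : 0 < 1 + L.rx c o / R := by have := L.rx_nonneg c o; positivity
    have hb : 0 < 1 + L.rx c q.1 / R := by have := L.rx_nonneg c q.1; positivity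
    have : 2 * ((1 + L.rx c o / R)⁻¹ * (1 + L.rx c q.1 / R)⁻¹) ≤ f o + f q.1 := by
      simp only [hf, ← inv_pow]
      nlinarith [sq_nonneg ((1 + L.rx c o / R)⁻¹ - (1 + L.rx c q.1 / R)⁻¹)]
    calc _ = 2 / R * (2 * ((1 + L.rx c o / R)⁻¹ * (1 + L.rx c q.1 / R)⁻¹)) * L.rx o q.1 := by
          rw [Lat.wF, L.rx_eq, L.rx_symm c, L.rx_symm c, div_eq_mul_inv, mul_inv]; ring
      _ ≤ _ := by gcongr
  · simp only [← mul_sum, sum_add_distrib]
    rw [sum_comm (f := fun o x => f x * (kx L D x o * L.rx x o ^ 1))]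
    simp only [← mul_sum]
    have h1 : ∑ o, f o * ∑ x, kx L D o x * L.rx o x ^ 1 ≤ 24 * R * (C * D ^ 4) := by
      refine (sum_le_sum fun o _ => mul_le_mul_of_nonneg_left (h L D hD o) (hf0 o)).trans ?_
      rw [← sum_mul]
      exact mul_le_mul_of_nonneg_right (sum_inv_sq L c hR) (by positivity)
    calc _ ≤ 2 * (2 / R * (24 * R * (C * D ^ 4) + 24 * R * (C * D ^ 4))) := by gcongr
      _ = _ := by field_simp; ring

end Crest.Agent.N334.Sw
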