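import Crest.Agent.N334.Sw.Exp
import Crest.Agent.N334.G.Trace

/-!
# Row 334, S0519 SWITCH: one-site property of the quartic moment
-/

set_option autoImplicit false

open MeasureTheory Finset Complex
open scoped ComplexConjugate

noncomputable section

namespace Crest.Agent.N334.Sw

open G I

namespace LM

theorem tri1 (a b c : ℂ) : ‖a - c‖ ^ 4 ≤ 8 * (‖a - b‖ ^ 4 + ‖b - c‖ ^ 4) := by
  have h1 : ‖a - c‖ ≤ ‖a - b‖ + ‖b - c‖ := norm_sub_le_norm_sub_add_norm_sub a b c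
  have h2 : ‖a - c‖ ^ 4 ≤ (‖a - b‖ + ‖b - c‖) ^ 4 := pow_le_pow_left₀ (norm_nonneg _) h1 4
  have h3 := add_pow_le (norm_nonneg (a - b)) (norm_nonneg (b - c)) 4
  norm_num at h3
  linarith

theorem tri {P ι : Type} [Fintype ι] (U : ι → P → ℂ) (a b c : P) :
    w4 U a c ≤ 8 * (w4 U a b + w4 U b c) := by
  simp only [w4, ← sum_add_distrib, mul_sum]
  exact sum_le_sum fun i _ => tri1 _ _ _

/-- the quartic weight of one function -/
def w1 {P : Type} (U : P → ℂ) (p q : P) : ℝ := ‖U p - U q‖ ^ 4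

theorem w1_symm {P : Type} (U : P → ℂ) (p q : P) : w1 U p q = w1 U q p := by
  rw [w1, w1, norm_sub_rev]

theorem w1_self {P : Type} (U : P → ℂ) (p : P) : w1 U p p = 0 := by simp [w1]

theorem w1_nonneg {P : Type} (U : P → ℂ) (p q : P) : 0 ≤ w1 U p q := by unfold w1; positivity

theorem w4_eq {P ι : Type} [Fintype ι] (U : ι → P → ℂ) (p q : P) :
    w4 U p q = ∑ i, w1 (U i) p q := rfl

theorem w4_symm {P ι : Type} [Fintype ι] (U : ι → P → ℂ) (p q : P) : w4 U p q = w4 U q p :=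
  sum_congr rfl fun i _ => w1_symm (U i) p q

theorem w4_self {P ι : Type} [Fintype ι] (U : ι → P → ℂ) (p : P) : w4 U p p = 0 := by simp [w4]

theorem w4_nonneg {P ι : Type} [Fintype ι] (U : ι → P → ℂ) (p q : P) : 0 ≤ w4 U p q :=
  sum_nonneg fun i _ => w1_nonneg (U i) p q

variable {P : Type} [Fintype P] [DecidableEq P]

omit [DecidableEq P] in
theorem Gam_w4 {ι : Type} [Fintype ι] (U : ι → P → ℂ) (K : P → P → ℂ) (y : P) :
    Gam (w4 U) K y = ∑ i, Gam (w1 (U i)) K y := by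
  simp only [Gam, w4_eq, mul_sum]
  exact sum_comm

omit [DecidableEq P] in
theorem En_w4 {ι : Type} [Fintype ι] (U : ι → P → ℂ) (K : P → P → ℂ) :
    En (w4 U) K = ∑ i, En (w1 (U i)) K := by
  simp only [En, Gam_w4]
  exact sum_comm

variable {y : P} (c : Cav y)

theorem Th_w4 {ι : Type} [Fintype ι] (U : ι → P → ℂ) : Th c (w4 U) = ∑ i, Th c (w1 (U i)) := by
  simp only [Th, w4_eq, Complex.ofReal_sum, mul_sum]
  rw [sum_congr rfl fun p _ => sum_comm, sum_comm]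

theorem Bb_le {w : P → P → ℝ} (hs : ∀ p q, w p q = w q p)
    (ht : ∀ p q, w p q ≤ 8 * (w p y + w y q)) : Bb c w ≤ 16 * c.s.im * c.V w := by
  have h1 : Bb c w ≤ ∑ p, ∑ q, (8 * ((‖c.rho p‖ ^ 2 * w y p) * ‖c.rho q‖ ^ 2) +
      8 * (‖c.rho p‖ ^ 2 * (‖c.rho q‖ ^ 2 * w y q))) := by
    refine sum_le_sum fun p _ => sum_le_sum fun q _ => ?_
    have := mul_le_mul_of_nonneg_left (ht p q)
      (show 0 ≤ ‖c.rho p‖ ^ 2 * ‖c.rho q‖ ^ 2 by positivity)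
    rw [hs p y] at this
    linarith
  simp only [sum_add_distrib, ← mul_sum, ← sum_mul] at h1
  rw [c.im_s, Cav.V]
  linarith

theorem K_y (a γ : ℝ) (p : P) :
    c.K a γ p y = 2 * I * c.z a γ * c.vec γ p * (Real.sqrt γ : ℂ) := by
  simp [Cav.K, c.K0_y, Cav.vec]

theorem Th3_K (U : P → ℂ) (a : ℝ) {γ : ℝ} (hγ : 0 ≤ γ) :
    Th3 (fun _ => 1) U (c.K a γ) y = -4 * γ * c.z a γ ^ 2 *
      (Th c (w1 U) - 2 * I * conj (c.z a γ) * ((Bb c (w1 U) + 2 * γ * c.V (w1 U) : ℝ) : ℂ)) := by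
  have hsq : (Real.sqrt γ : ℂ) * (Real.sqrt γ : ℂ) = γ := by
    rw [← Complex.ofReal_mul, Real.mul_self_sqrt hγ]
  have e : ∀ p q, (((fun _ => 1 : P → ℝ) p : ℝ) : ℂ) * conj (c.K a γ p q) * c.K a γ p y *
      c.K a γ q y * ((‖U p - U q‖ ^ 4 : ℝ) : ℂ) = -4 * γ * c.z a γ ^ 2 *
      (conj (c.K0 p q) * c.rho p * c.rho q * (w1 U p q : ℂ) - 2 * I * conj (c.z a γ) *
        ((‖c.vec γ p‖ ^ 2 * ‖c.vec γ q‖ ^ 2 * w1 U p q : ℝ) : ℂ)) := by
    intro p q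
    rw [← K0_vec c γ p q, K_y, K_y]
    have h1 : conj (c.K a γ p q) = conj (c.K0 p q) -
        2 * I * conj (c.z a γ) * conj (c.vec γ p) * conj (c.vec γ q) := by
      simp only [Cav.K, map_add, map_mul, Complex.conj_I, map_ofNat]; ring
    have h2 : ((‖c.vec γ p‖ ^ 2 * ‖c.vec γ q‖ ^ 2 * w1 U p q : ℝ) : ℂ) =
        (conj (c.vec γ p) * c.vec γ p) * (conj (c.vec γ q) * c.vec γ q) * (w1 U p q : ℂ) := by
      rw [Complex.conj_mul', Complex.conj_mul']; push_cast; ring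
    rw [h1, h2, ← hsq]
    change _ * (w1 U p q : ℂ) = _
    have hI := Complex.I_mul_I
    push_cast
    linear_combination (4 * c.z a γ ^ 2 * (Real.sqrt γ : ℂ) ^ 2 * c.vec γ p * c.vec γ q *
      (w1 U p q : ℂ) * (conj (c.K0 p q) -
        2 * I * conj (c.z a γ) * conj (c.vec γ p) * conj (c.vec γ q))) * hI
  rw [← sum_vec_vec c (w1_symm U) (w1_self U y) hγ, Th3, Th]
  simp only [e, ← mul_sum, sum_sub_distrib, Complex.ofReal_sum]

theorem Th_le (U : P → ℂ) (a : ℝ) {γ : ℝ} (hγ : 0 ≤ γ) :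
    4 * ‖Th c (w1 U)‖ * (γ * ‖c.z a γ‖ ^ 2) ≤
      ‖Th3 (fun _ => 1) U (c.K a γ) y‖ + 32 * Gam (w1 U) (c.K a γ) y := by
  have hV := V_nonneg c (w1_nonneg U)
  have hB := Bb_nonneg c (w1_nonneg U)
  have hB' := Bb_le c (w1_symm U) fun p q => tri1 (U p) (U y) (U q)
  have hz : (γ + c.s.im) * ‖c.z a γ‖ ≤ 1 := norm_zz_le (by linarith [c.s_pos]) a
  set R : ℝ := Bb c (w1 U) + 2 * γ * c.V (w1 U) with hR
  have hR0 : 0 ≤ R := by positivity
  have hR1 : R ≤ 16 * (γ + c.s.im) * c.V (w1 U) := by nlinarith [mul_nonneg hγ hV]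
  have h1 : ‖2 * I * conj (c.z a γ) * (R : ℂ)‖ ≤ 32 * c.V (w1 U) := by
    simp only [norm_mul, Complex.norm_I, Complex.norm_ofNat, Complex.norm_conj, Complex.norm_real,
      Real.norm_eq_abs, abs_of_nonneg hR0]
    calc 2 * 1 * ‖c.z a γ‖ * R ≤ 2 * 1 * ‖c.z a γ‖ * (16 * (γ + c.s.im) * c.V (w1 U)) := by gcongr
      _ = 32 * c.V (w1 U) * ((γ + c.s.im) * ‖c.z a γ‖) := by ring
      _ ≤ 32 * c.V (w1 U) * 1 := by gcongr
      _ = _ := mul_one _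
  have h2 : ‖Th c (w1 U)‖ ≤ ‖Th c (w1 U) - 2 * I * conj (c.z a γ) * (R : ℂ)‖ +
      32 * c.V (w1 U) := by
    have := norm_add_le (Th c (w1 U) - 2 * I * conj (c.z a γ) * (R : ℂ))
      (2 * I * conj (c.z a γ) * (R : ℂ))
    rw [sub_add_cancel] at this
    linarith
  rw [Th3_K c U a hγ, c.Gam_y a γ hγ (w1_self U y), ← hR]
  simp only [norm_mul, norm_neg, Complex.norm_ofNat, norm_pow, Complex.norm_real, Real.norm_eq_abs,
    abs_of_nonneg hγ]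
  have h3 := mul_le_mul_of_nonneg_left h2 (show 0 ≤ 4 * γ * ‖c.z a γ‖ ^ 2 by positivity)
  linarith

theorem le_split {x G θ : ℝ} (hθ : 0 < θ) (hG : 0 ≤ G) (h : G = 0 → x = 0) :
    x ≤ θ * (x ^ 2 / G) + θ⁻¹ * G := by
  rcases hG.eq_or_lt with h0 | h0
  · rw [h h0.symm, ← h0]; simp
  · have e : θ * (x ^ 2 / G) + θ⁻¹ * G - x = ((θ * x - G) ^ 2 + θ * x * G) / (θ * G) := by
      field_simp; ring
    have h1 : 0 ≤ (θ * x - G) ^ 2 + θ * x * G := by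
      nlinarith [sq_nonneg (θ * x - G / 2), sq_nonneg G]
    have h2 : 0 ≤ ((θ * x - G) ^ 2 + θ * x * G) / (θ * G) := by positivity
    linarith

end LM

open LM in
theorem locM : ∃ C : ℝ, 1 ≤ C ∧ ∀ (P : Type) [Fintype P] [DecidableEq P] (y : P)
    (ι : Type) [Fintype ι] (U : ι → P → ℂ) (lam : ℝ),
    Loc y (fun K => lam + En (w4 U) K)
      (fun K => ∑ i, ‖Th3 (fun _ => 1) (U i) K y‖ + C * Gam (w4 U) K y)
      (fun K => C * Gam (w4 U) K y) := by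
  refine ⟨48, by norm_num, fun P _ _ y ι _ U lam c => ?_⟩
  have hV := V_nonneg c (w4_nonneg U)
  have hB := Bb_le c (w4_symm U) fun p q => tri U p y q
  refine ⟨4 * I * (Th c (w4 U) - 2 * c.V (w4 U)) - 56 * I * c.V (w4 U), 56 * c.V (w4 U),
    by positivity, fun a γ γ' h0 h => ?_, fun a γ hγ => ?_, fun a γ hγ => ?_⟩
  · beta_reduce
    rw [En_K c (w4_symm U) (w4_self U y) a h0, En_K c (w4_symm U) (w4_self U y) a (h0.trans h)]
    have h1 := im_sq_sub_le' (a := a) c.s_pos h0 h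
    have h2 := sq_zz_mono (a := a) c.s_pos h0 h
    have h3 : ((4 * I * (Th c (w4 U) - 2 * c.V (w4 U)) - 56 * I * c.V (w4 U)) *
        (zz c.s a γ' - zz c.s a γ)).re =
        (4 * I * (Th c (w4 U) - 2 * c.V (w4 U)) * zz c.s a γ').re -
          (4 * I * (Th c (w4 U) - 2 * c.V (w4 U)) * zz c.s a γ).re +
          56 * c.V (w4 U) * (zz c.s a γ' - zz c.s a γ).im := by
      have : (4 * I * (Th c (w4 U) - 2 * c.V (w4 U)) - 56 * I * c.V (w4 U)) *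
          (zz c.s a γ' - zz c.s a γ) =
          4 * I * (Th c (w4 U) - 2 * c.V (w4 U)) * zz c.s a γ' -
            4 * I * (Th c (w4 U) - 2 * c.V (w4 U)) * zz c.s a γ +
            ((56 * c.V (w4 U) : ℝ) : ℂ) * (-I * (zz c.s a γ' - zz c.s a γ)) := by
        push_cast; ring
      rw [this, Complex.add_re, Complex.sub_re, Complex.re_ofReal_mul]
      simp
    rw [h3]
    simp only [Cav.z]
    have h4 := mul_le_mul_of_nonneg_left h1 (show 0 ≤ 56 * c.V (w4 U) by positivity)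
    have h5 := mul_le_mul_of_nonneg_right hB (sub_nonneg.2 h2)
    nlinarith
  · have h1 : ‖4 * I * (Th c (w4 U) - 2 * c.V (w4 U)) - 56 * I * c.V (w4 U)‖ ≤
        ∑ i, 4 * ‖Th c (w1 (U i))‖ + 64 * c.V (w4 U) := by
      have e : 4 * I * (Th c (w4 U) - 2 * c.V (w4 U)) - 56 * I * c.V (w4 U) =
          4 * I * Th c (w4 U) - I * ((64 * c.V (w4 U) : ℝ) : ℂ) := by push_cast; ring
      rw [e]
      refine (norm_sub_le _ _).trans ?_
      have h2 : ‖Th c (w4 U)‖ ≤ ∑ i, ‖Th c (w1 (U i))‖ := by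
        rw [Th_w4]; exact norm_sum_le _ _
      rw [norm_mul, norm_mul, norm_mul, Complex.norm_I, Complex.norm_real, Real.norm_eq_abs,
        abs_of_nonneg (by positivity), ← mul_sum, Complex.norm_ofNat]
      linarith
    have h2 := mul_le_mul_of_nonneg_right h1 (show 0 ≤ γ * ‖c.z a γ‖ ^ 2 by positivity)
    have h3 : ∑ i, 4 * ‖Th c (w1 (U i))‖ * (γ * ‖c.z a γ‖ ^ 2) ≤
        ∑ i, (‖Th3 (fun _ => 1) (U i) (c.K a γ) y‖ + 32 * Gam (w1 (U i)) (c.K a γ) y) :=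
      sum_le_sum fun i _ => Th_le c (U i) a hγ
    rw [sum_add_distrib, ← mul_sum, ← Gam_w4, ← sum_mul] at h3
    have h4 := c.Gam_y a γ hγ (w := w4 U) (w4_self U y)
    beta_reduce
    nlinarith
  · beta_reduce
    rw [c.Gam_y a γ hγ (w := w4 U) (w4_self U y)]
    have : 0 ≤ γ * ‖c.z a γ‖ ^ 2 * c.V (w4 U) := by positivity
    nlinarith

theorem nice_Th3 {P : Type} [Fintype P] [DecidableEq P] (h : P → ℝ) (U : P → ℂ) (y : P) :
    Nice fun K => ‖Th3 h U K y‖ := by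
  refine ⟨?_, ∑ p, ∑ q, |h p| * 2 * 2 * 2 * ‖U p - U q‖ ^ 4, fun K hK => ?_⟩
  · unfold Th3
    fun_prop
  · rw [abs_of_nonneg (norm_nonneg _), Th3]
    refine (norm_sum_le _ _).trans (sum_le_sum fun p _ => (norm_sum_le _ _).trans
      (sum_le_sum fun q _ => ?_))
    simp only [norm_mul, Complex.norm_real, Real.norm_eq_abs, Complex.norm_conj]
    rw [abs_of_nonneg (show 0 ≤ ‖U p - U q‖ ^ 4 by positivity)]
    have h1 := hK.norm_le p q
    have h2 := hK.norm_le p y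
    have h3 := hK.norm_le q y
    gcongr

open LM in
theorem sumM : ∃ C : ℝ, 1 ≤ C ∧ ∀ (P : Type) [Fintype P] [DecidableEq P]
    (ι : Type) [Fintype ι] (U : ι → P → ℂ), (∀ i p, ‖U i p‖ = 1) →
    ∀ (K : P → P → ℂ), IsPort K → ∀ (θ : ℝ), 0 < θ → ∀ (S : Finset P),
    ∑ y ∈ S, ∑ i, ‖Th3 (fun _ => 1) (U i) K y‖ ≤
      C * θ * En (w4 U) K + θ⁻¹ * ∑ y ∈ S, Gam (w4 U) K y := by
  obtain ⟨C, hC, H⟩ := trace3
  refine ⟨1 + C, by linarith, fun P _ _ ι _ U hU K hK θ hθ S => ?_⟩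
  have key : ∀ i, ∑ y ∈ S, ‖Th3 (fun _ => 1) (U i) K y‖ ≤
      (1 + C) * θ * En (w1 (U i)) K + θ⁻¹ * ∑ y ∈ S, Gam (w1 (U i)) K y := by
    intro i
    obtain ⟨h1, h2⟩ := H P K hK (U i) (fun _ => 1) 1 (hU i) (fun _ => by simp)
    change ∀ y, Gam (w1 (U i)) K y = 0 → _ at h1
    change ∑ y, ‖Th3 (fun _ => 1) (U i) K y‖ ^ 2 / Gam (w1 (U i)) K y ≤
      C * 1 ^ 2 * En (w1 (U i)) K at h2
    have hG := fun y => Gam_nonneg (w1_nonneg (U i)) K y
    have h3 : ∑ y ∈ S, ‖Th3 (fun _ => 1) (U i) K y‖ ≤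
        ∑ y ∈ S, (θ * (‖Th3 (fun _ => 1) (U i) K y‖ ^ 2 / Gam (w1 (U i)) K y) +
          θ⁻¹ * Gam (w1 (U i)) K y) :=
      sum_le_sum fun y _ => le_split hθ (hG y) fun h => by rw [h1 y h, norm_zero]
    have h4 : ∑ y ∈ S, ‖Th3 (fun _ => 1) (U i) K y‖ ^ 2 / Gam (w1 (U i)) K y ≤
        ∑ y, ‖Th3 (fun _ => 1) (U i) K y‖ ^ 2 / Gam (w1 (U i)) K y :=
      sum_le_sum_of_subset_of_nonneg (subset_univ S) fun y _ _ => div_nonneg (sq_nonneg _) (hG y)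
    rw [sum_add_distrib, ← mul_sum, ← mul_sum] at h3
    have h5 := mul_le_mul_of_nonneg_left (h4.trans h2) hθ.le
    have h6 := mul_nonneg hθ.le (En_nonneg (w1_nonneg (U i)) K)
    nlinarith
  rw [sum_comm, En_w4, mul_sum]
  simp only [Gam_w4]
  rw [sum_comm (s := S), mul_sum, ← sum_add_distrib]
  exact sum_le_sum fun i _ => key i

theorem w4_tri {P ι : Type} [Fintype ι] (U : ι → P → ℂ) (a b c : P) :
    w4 U a c ≤ 8 * (w4 U a b + w4 U b c) := LM.tri U a b c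

end Crest.Agent.N334.Sw
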