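import Crest.Agent.N334.Sw.Ph
import Crest.Agent.N334.Sw.LocT
import Crest.Agent.N334.Sw.LocM

/-!
# Row 334, S0519 SWITCH (helper45): transport of the energies through phases 0 and 1
-/

set_option autoImplicit false

open MeasureTheory Finset

noncomputable section

namespace Crest.Agent.N334.Sw

open G I

theorem fnT : ∃ C : ℝ, 1 ≤ C ∧ ∀ (L : G.Lat) (ι : Type) [Fintype ι] (Φ : ι → L.P → ℝ) (D lam : ℝ)
    (p : ℕ), 1 ≤ p → 0 < lam → (∀ a b, wt Φ a b ≤ D) → C * ((p - 1) * D) ≤ lam →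
    Fn (L := L) (fun K => (lam + En (wt Φ) K) ^ p) (fun K => (lam + En (wt Φ) K) ^ (p - 1)) (wt Φ)
      (fun y K => C * p * ((lam + En (wt Φ) K) ^ (p - 1) * Gam (wt Φ) K (y, true)))
      (fun y K => C * p * ((p - 1) * D / lam) *
        ((lam + En (wt Φ) K) ^ (p - 1) * Gam (wt Φ) K (y, true))) (2 * C * p) (lam ^ p) := by
  obtain ⟨C, hC, H⟩ := locT
  refine ⟨C, hC, fun L ι _ Φ D lam p hp hl hD hCl => ?_⟩
  have hp' : (1 : ℝ) ≤ p := by exact_mod_cast hp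
  have hx : ∀ K : L.Mat, lam ≤ lam + En (wt Φ) K := fun K =>
    le_add_of_nonneg_right (En_nonneg (wt_nonneg Φ) _)
  have hW : ∀ K : L.Mat, 0 ≤ (lam + En (wt Φ) K) ^ (p - 1) := fun K =>
    pow_nonneg (hl.le.trans (hx K)) _
  have hG : ∀ (K : L.Mat) (y : L.X),
      0 ≤ (lam + En (wt Φ) K) ^ (p - 1) * Gam (wt Φ) K (y, true) := fun K y =>
    mul_nonneg (hW K) (Gam_nonneg (wt_nonneg Φ) _ _)
  have nW : Nice fun K : L.Mat => (lam + En (wt Φ) K) ^ (p - 1) :=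
    ((Nice.const lam).add (nice_En _)).pow _
  have ht : ∀ y : L.X, 0 ≤ (p - 1) * D / lam ∧ (p - 1) * D / lam ≤ 1 := fun y => by
    have hD0 : 0 ≤ D := (wt_self Φ (y, true)).symm.le.trans (hD _ _)
    have h1 : 0 ≤ (p - 1) * D := mul_nonneg (sub_nonneg.2 hp') hD0
    exact ⟨div_nonneg h1 hl.le, (div_le_one hl).2 (by nlinarith)⟩
  have hCp : 0 ≤ C * p := by positivity
  refine ⟨((Nice.const lam).add (nice_En _)).pow _, nW,
    fun y => (Nice.const _).mul (nW.mul (nice_Gam _ _)),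
    fun y => (Nice.const _).mul (nW.mul (nice_Gam _ _)), fun y K _ => mul_nonneg hCp (hG K y),
    fun y K _ => mul_nonneg (mul_nonneg hCp (ht y).1) (hG K y), fun K _ => hW K, wt_nonneg Φ,
    by nlinarith, pow_pos hl p, fun K _ => pow_le_pow_left₀ hl.le (hx K) p,
    fun y => H _ _ ι Φ D lam p hp hl hD hCl, fun K _ θ h0 h1 S => ?_, fun K _ => ?_⟩
  · have h2 : ∑ y ∈ S, (C * p * ((lam + En (wt Φ) K) ^ (p - 1) * Gam (wt Φ) K (y, true)) +
        C * p * ((p - 1) * D / lam) * ((lam + En (wt Φ) K) ^ (p - 1) * Gam (wt Φ) K (y, true))) ≤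
        2 * C * p * ∑ y ∈ S, (lam + En (wt Φ) K) ^ (p - 1) * Gam (wt Φ) K (y, true) := by
      rw [mul_sum]
      refine sum_le_sum fun y _ => ?_
      have := mul_le_mul_of_nonneg_left (ht y).2 (mul_nonneg hCp (hG K y))
      nlinarith
    refine h2.trans (mul_le_mul_of_nonneg_left ?_ (by positivity))
    have h3 : 0 ≤ ∑ y ∈ S, (lam + En (wt Φ) K) ^ (p - 1) * Gam (wt Φ) K (y, true) :=
      sum_nonneg fun y _ => hG K y
    have h4 : 1 ≤ θ⁻¹ := (one_le_inv₀ h0).2 h1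
    have h5 : 0 ≤ θ * (lam + En (wt Φ) K) ^ p :=
      mul_nonneg h0.le (pow_nonneg (hl.le.trans (hx K)) _)
    nlinarith
  · obtain ⟨n, rfl⟩ : ∃ n, p = n + 1 := ⟨p - 1, by omega⟩
    rw [Nat.add_sub_cancel, pow_succ]
    exact mul_le_mul_of_nonneg_left (le_add_of_nonneg_left hl.le)
      (pow_nonneg (hl.le.trans (hx K)) _)

theorem s4_eq (L : G.Lat) (m : ℕ) : L.s4 m = w4 fun i (p : L.P) => L.U (m + 1) i p.1 := by
  funext p q
  simp only [G.Lat.s4, G.Lat.del, w4, ← pow_mul]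

theorem fnM : ∃ C : ℝ, 1 ≤ C ∧ ∀ (L : G.Lat) (m : ℕ) (lam : ℝ), 0 < lam → ∃ X Y,
    Fn (L := L) (fun K => lam + En (L.s4 m) K) (fun _ => 1) (L.s4 m) X Y C lam := by
  obtain ⟨C, hC, H⟩ := locM
  obtain ⟨C', hC', H'⟩ := sumM
  refine ⟨C' + 2 * C + 1, by linarith, fun L m lam hl => ?_⟩
  rw [s4_eq]
  set U : Fin 2 → L.P → ℂ := fun i p => L.U (m + 1) i p.1
  have hw : ∀ p q, 0 ≤ w4 U p q := fun p q => sum_nonneg fun _ _ => by positivity
  have hC0 : 0 ≤ C := zero_le_one.trans hC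
  refine ⟨fun y K => ∑ i, ‖Th3 (fun _ => 1) (U i) K (y, true)‖ + C * Gam (w4 U) K (y, true),
    fun y K => C * Gam (w4 U) K (y, true), (Nice.const lam).add (nice_En _), Nice.const 1,
    fun y => (Nice.sum _ fun i _ => nice_Th3 _ _ _).add ((Nice.const C).mul (nice_Gam _ _)),
    fun y => (Nice.const C).mul (nice_Gam _ _),
    fun y K _ => add_nonneg (sum_nonneg fun _ _ => norm_nonneg _)
      (mul_nonneg hC0 (Gam_nonneg hw _ _)),
    fun y K _ => mul_nonneg hC0 (Gam_nonneg hw _ _), fun _ _ => zero_le_one, hw, by linarith, hl,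
    fun K _ => le_add_of_nonneg_right (En_nonneg hw _), fun y => H _ _ _ U lam,
    fun K hK θ h0 h1 S => ?_, fun K _ => by rw [one_mul]; exact le_add_of_nonneg_left hl.le⟩
  have h2 := H' L.P (Fin 2) U (fun i p => L.norm_U _ _ _) K hK θ h0
    (S.map ⟨fun y => ((y, true) : L.P), fun _ _ h => congrArg Prod.fst h⟩)
  rw [sum_map, sum_map] at h2
  simp only [Function.Embedding.coeFn_mk] at h2
  simp only [sum_add_distrib, ← mul_sum, one_mul]
  have h3 : 0 ≤ ∑ y ∈ S, Gam (w4 U) K (y, true) := sum_nonneg fun _ _ => Gam_nonneg hw _ _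
  have h4 : 1 ≤ θ⁻¹ := (one_le_inv₀ h0).2 h1
  have h5 := En_nonneg hw K
  have h6 : ∑ y ∈ S, Gam (w4 U) K (y, true) ≤ θ⁻¹ * ∑ y ∈ S, Gam (w4 U) K (y, true) := by nlinarith
  have h7 := mul_le_mul_of_nonneg_left h6 hC0
  have h8 : 0 ≤ θ * lam := by positivity
  have h9 : 0 ≤ θ * En (w4 U) K := by positivity
  have h10 : 0 ≤ θ⁻¹ * ∑ y ∈ S, Gam (w4 U) K (y, true) := by positivity
  nlinarith [mul_nonneg hC0 h8, mul_nonneg hC0 h9, mul_nonneg (zero_le_one.trans hC') h8,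
    mul_nonneg (zero_le_one.trans hC') h10]

/-- phase 0, tempered energies (`p = 1`: plain energy) -/
theorem switchT0 : ∃ C : ℝ, 1 ≤ C ∧ ∀ (L : G.Lat) (h : ℝ) (lab : Lab L.X h) (E η : ℝ), 0 < h →
    0 < η → ∀ (ι : Type) [Fintype ι] (Φ : ι → L.P → ℝ) (D lam : ℝ) (p : ℕ), 1 ≤ p → 0 < lam →
    (∀ a b, wt Φ a b ≤ D) → C * ((p - 1) * D) ≤ lam →
    ∀ (S : Finset L.X) (μ : L.X → Measure ℂ) [∀ x, IsProbabilityMeasure (μ x)] (cs : ℕ),
    (∀ c, cs ≤ c → ∀ q, 0 ≤ q → q ≤ 1 →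
      Sh lab E η (st0 h η S μ c q) S (fun K => (lam + En (wt Φ) K) ^ (p - 1)) (wt Φ) ≤
        2 ^ cs / 2 ^ c * Iw lab E η (st0 h η S μ c q) fun K => (lam + En (wt Φ) K) ^ p) →
    Iw lab E η (rep S μ fun _ => lift η (dens (ud h))) (fun K => (lam + En (wt Φ) K) ^ p) ≤
      Real.exp (C * p * (cs + 1)) *
        Iw lab E η (rep S μ fun _ => lawC h η 0) fun K => (lam + En (wt Φ) K) ^ p := by
  obtain ⟨C, hC, H⟩ := fnT
  obtain ⟨C', hC', H'⟩ := phase0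
  refine ⟨2 * C * C', by nlinarith, fun L h lab E η hh hη ι _ Φ D lam p hp hl hD hCl S μ _ cs
    hS => ?_⟩
  have h0 : C * ((p - 1) * D) ≤ lam := by
    rcases le_total 0 (((p : ℝ) - 1) * D) with h1 | h1
    · refine le_trans (mul_le_mul_of_nonneg_right ?_ h1) hCl
      nlinarith
    · nlinarith
  have h1 := H' (H L ι Φ D lam p hp hl hD h0) lab E hh hη μ S cs hS
  rwa [show C' * (2 * C * p) = 2 * C * C' * p by ring] at h1

/-- phase 0, quartic moment -/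
theorem switchM0 : ∃ C : ℝ, 1 ≤ C ∧ ∀ (L : G.Lat) (h : ℝ) (lab : Lab L.X h) (E η : ℝ), 0 < h →
    0 < η → ∀ (m : ℕ) (lam : ℝ), 0 < lam →
    ∀ (S : Finset L.X) (μ : L.X → Measure ℂ) [∀ x, IsProbabilityMeasure (μ x)] (cs : ℕ),
    (∀ c, cs ≤ c → ∀ q, 0 ≤ q → q ≤ 1 →
      Sh lab E η (st0 h η S μ c q) S (fun _ => 1) (L.s4 m) ≤
        2 ^ cs / 2 ^ c * Iw lab E η (st0 h η S μ c q) fun K => lam + En (L.s4 m) K) →
    Iw lab E η (rep S μ fun _ => lift η (dens (ud h))) (fun K => lam + En (L.s4 m) K) ≤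
      Real.exp (C * (cs + 1)) *
        Iw lab E η (rep S μ fun _ => lawC h η 0) fun K => lam + En (L.s4 m) K := by
  obtain ⟨C, hC, H⟩ := fnM
  obtain ⟨C', hC', H'⟩ := phase0
  refine ⟨C' * C, by nlinarith, fun L h lab E η hh hη m lam hl S μ _ cs hS => ?_⟩
  obtain ⟨X, Y, F⟩ := H L m lam hl
  exact H' F lab E hh hη μ S cs hS

/-- phase 1 (thinning), tempered energies -/
theorem switchT1 : ∃ C : ℝ, 1 ≤ C ∧ ∀ (L : G.Lat) (h : ℝ) (lab : Lab L.X h) (E η : ℝ), 0 < h →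
    0 < η → ∀ (ι : Type) [Fintype ι] (Φ : ι → L.P → ℝ) (D lam : ℝ) (p : ℕ), 1 ≤ p → 0 < lam →
    (∀ a b, wt Φ a b ≤ D) → 0 ≤ D → C * ((p - 1) * D) ≤ lam →
    ∀ (S : Finset L.X) (μ : L.X → Measure ℂ) [∀ x, IsProbabilityMeasure (μ x)]
      (a₀ b γ : L.X → ℝ), (∀ x, 0 < b x ∧ 0 ≤ γ x ∧ γ x ≤ b x) →
    ∀ ε α Λ : ℝ, 0 ≤ ε → 0 ≤ α → 1 ≤ Λ →
    (∀ q, 0 ≤ q → q < 1 →
      Bi lab E η (st1 η S μ a₀ b γ q) S a₀ b γ (fun K => (lam + En (wt Φ) K) ^ (p - 1)) (wt Φ) ≤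
        (ε / (1 - q) + α) * Iw lab E η (st1 η S μ a₀ b γ q) fun K => (lam + En (wt Φ) K) ^ p) →
    (∀ q, 0 ≤ q → q ≤ 1 →
      Sh lab E η (st1 η S μ a₀ b γ q) S (fun K => (lam + En (wt Φ) K) ^ (p - 1)) (wt Φ) ≤
        (1 - q) * Λ * Iw lab E η (st1 η S μ a₀ b γ q) fun K => (lam + En (wt Φ) K) ^ p) →
    Iw lab E η (rep S μ fun x => lift η (law (a₀ x) (b x))) (fun K => (lam + En (wt Φ) K) ^ p) ≤
      Real.exp (C * p * ((ε + (p - 1) * D / lam) * Real.log Λ + α + 1)) *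
        Iw lab E η (rep S μ fun x => lift (η + γ x) (law (a₀ x) (b x)))
          fun K => (lam + En (wt Φ) K) ^ p := by
  obtain ⟨C, hC, H⟩ := fnT
  obtain ⟨C', hC', H'⟩ := phase1
  obtain ⟨C'', hC'', hstep⟩ := step_ref
  have hCC : 1 ≤ C' * C'' := one_le_mul_of_one_le_of_one_le hC' hC''
  refine ⟨2 * C * (C' * C''), by nlinarith, fun L h lab E η hh hη ι _ Φ D lam p hp hl hD hD0 hCl S μ
    _ a₀ b γ hb ε α Λ hε hα hΛ hB hS => ?_⟩
  have hp' : (1 : ℝ) ≤ p := by exact_mod_cast hp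
  have := fun x => law_prob (a₀ x) (hb x).1
  have h1 : 0 ≤ ((p : ℝ) - 1) * D := mul_nonneg (sub_nonneg.2 hp') hD0
  have h0 : C * ((p - 1) * D) ≤ lam := by
    refine le_trans (mul_le_mul_of_nonneg_right ?_ h1) hCl
    nlinarith
  have F := H L ι Φ D lam p hp hl hD h0
  have ht0 : 0 ≤ ((p : ℝ) - 1) * D / lam := div_nonneg h1 hl.le
  generalize ((p : ℝ) - 1) * D / lam = t at F ht0 ⊢
  have hCp : 0 ≤ C * p := by positivity
  have h2 := H' F lab E hh hη μ S a₀ b γ hb (C'' * (C * p) * ε + C * p * t) (C'' * (C * p) * α) Λ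
    (by positivity) hΛ (fun q h0 h1 => ?_) hS
  · have := isProb_rep S μ fun x => lift (η + γ x) (law (a₀ x) (b x))
    refine h2.trans (mul_le_mul_of_nonneg_right (Real.exp_le_exp.2 ?_) (F.Iw_pos lab E hh hη _))
    have h3 := Real.log_nonneg hΛ
    have h4 : C'' * (C * p) ≤ 2 * C * (C' * C'') * p := by
      have : 0 ≤ C'' * (C * p) := by positivity
      nlinarith
    have h5 : C * p ≤ 2 * C * (C' * C'') * p := by nlinarith
    have h6 : C' * (2 * C * p) ≤ 2 * C * (C' * C'') * p := by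
      have : 0 ≤ C' * (2 * C * p) := by positivity
      nlinarith
    have h7 := mul_le_mul_of_nonneg_right h4 (mul_nonneg hε h3)
    have h8 := mul_le_mul_of_nonneg_right h5 (mul_nonneg ht0 h3)
    have h9 := mul_le_mul_of_nonneg_right h4 hα
    nlinarith
  · have := isProb_st1 η S μ a₀ γ (fun x => (hb x).1) h0 h1.le
    have hq : 0 < 1 - q := sub_pos.2 h1
    have nG : ∀ y : L.X, Nice fun K : L.Mat =>
        (lam + En (wt Φ) K) ^ (p - 1) * Gam (wt Φ) K (y, true) := fun y => F.nW.mul (nice_Gam _ _)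
    have h3 : Dr lab E η μ S a₀ b γ (fun K => (lam + En (wt Φ) K) ^ p) q ≤
        C'' * (C * p) * Bi lab E η (st1 η S μ a₀ b γ q) S a₀ b γ
          (fun K => (lam + En (wt Φ) K) ^ (p - 1)) (wt Φ) +
        C * p * t / (1 - q) * Sh lab E η (st1 η S μ a₀ b γ q) S
          (fun K => (lam + En (wt Φ) K) ^ (p - 1)) (wt Φ) := by
      rw [Dr, Bi, Sh, mul_sum, mul_sum, ← sum_add_distrib]
      refine sum_le_sum fun y hy => ?_
      have h4 := Iw_step lab E hh hη (st1 η S μ a₀ b γ q) y F.nΨ (F.nX y) (F.nY y) (F.X0 y)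
        (F.Y0 y) (mul_nonneg (zero_le_one.trans hC'') (div_nonneg (hb y).2.1 (hb y).1.le))
        zero_le_one (F.loc y) (hstep η (a₀ y) _ _ (hb y).1 (hb y).2.1 (hb y).2.2)
      rw [Iw_mul, Iw_mul, one_mul] at h4
      have hy' : st1 η S μ a₀ b γ q y =
          mix q (lift (η + γ y) (law (a₀ y) (b y))) (lift η (law (a₀ y) (b y))) := if_pos hy
      have h5 := Iw_open_le lab E hh hη _ h0 h1.le hy' (nG y) fun K hK =>
        mul_nonneg (F.W0 K hK) (Gam_nonneg F.w0 _ _)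
      rw [← le_div_iff₀' hq] at h5
      have h6 := mul_le_mul_of_nonneg_left h5 (mul_nonneg hCp ht0)
      rw [← mul_div_assoc, mul_div_right_comm] at h6
      linarith
    have h4 := mul_le_mul_of_nonneg_left (hB q h0 h1)
      (mul_nonneg (zero_le_one.trans hC'') hCp)
    have h5 := mul_le_mul_of_nonneg_left (F.Sh_le lab E hh hη (st1 η S μ a₀ b γ q) S)
      (div_nonneg (mul_nonneg hCp ht0) hq.le)
    refine h3.trans ((add_le_add h4 h5).trans (le_of_eq ?_))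
    ring

/-- phase 1 (thinning), quartic moment -/
theorem switchM1 : ∃ C : ℝ, 1 ≤ C ∧ ∀ (L : G.Lat) (h : ℝ) (lab : Lab L.X h) (E η : ℝ), 0 < h →
    0 < η → ∀ (m : ℕ) (lam : ℝ), 0 < lam →
    ∀ (S : Finset L.X) (μ : L.X → Measure ℂ) [∀ x, IsProbabilityMeasure (μ x)]
      (a₀ b γ : L.X → ℝ), (∀ x, 0 < b x ∧ 0 ≤ γ x ∧ γ x ≤ b x) → ∀ Λ : ℝ, 1 ≤ Λ →
    (∀ q, 0 ≤ q → q ≤ 1 → Sh lab E η (st1 η S μ a₀ b γ q) S (fun _ => 1) (L.s4 m) ≤
        (1 - q) * Λ * Iw lab E η (st1 η S μ a₀ b γ q) fun K => lam + En (L.s4 m) K) →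
    Iw lab E η (rep S μ fun x => lift η (law (a₀ x) (b x))) (fun K => lam + En (L.s4 m) K) ≤
      Real.exp (C * (Real.log Λ + 1)) *
        Iw lab E η (rep S μ fun x => lift (η + γ x) (law (a₀ x) (b x)))
          fun K => lam + En (L.s4 m) K := by
  obtain ⟨C, hC, H⟩ := fnM
  obtain ⟨C', hC', H'⟩ := phase1
  obtain ⟨C'', hC'', hdr⟩ := drift_open
  refine ⟨(C' + 2 * C'') * C, by nlinarith, fun L h lab E η hh hη m lam hl S μ _ a₀ b γ hb Λ hΛ
    hS => ?_⟩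
  obtain ⟨X, Y, F⟩ := H L m lam hl
  have := fun x => law_prob (a₀ x) (hb x).1
  have h2 := H' F lab E hh hη μ S a₀ b γ hb (C'' * (C * 2)) 0 Λ le_rfl hΛ (fun q h0 h1 => ?_) hS
  · have := isProb_rep S μ fun x => lift (η + γ x) (law (a₀ x) (b x))
    refine h2.trans (mul_le_mul_of_nonneg_right (Real.exp_le_exp.2 ?_) (F.Iw_pos lab E hh hη _))
    have h3 := Real.log_nonneg hΛ
    have h4 : 0 ≤ C' * C * Real.log Λ := by positivity
    have h5 : 0 ≤ C'' * C := by positivity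
    nlinarith
  · have := isProb_st1 η S μ a₀ γ (fun x => (hb x).1) h0 h1.le
    have h3 := hdr F lab E hh hη μ S a₀ b γ hb q 1 1 h0 h1 one_pos le_rfl (by
      rw [one_mul]; exact F.Sh_le lab E hh hη _ S)
    rw [add_zero]
    convert h3 using 5
    norm_num

end Crest.Agent.N334.Sw
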