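import Crest.Agent.N334.G.Defs
import Crest.Agent.N334.I.Defs

/-!
# Row 334, S0519 SWITCH (helper45): definitions

Configurations `w : X → ℂ` (`w x = a - i (η + γ)`), port matrices `Kw E η w`, averages `Iw` in a
labelled ensemble, two-state interpolations `mix`, the one-site property `Loc` of a functional,
the one-site property `Step` of a pair of laws, and the two inputs `LCat`, `BPat`.
-/

set_option autoImplicit false

open MeasureTheory Finset

noncomputable section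

namespace Crest.Agent.N334.Sw

open G I

/-- active strength of the value `t = a - i (η + γ)` -/
def ga (η : ℝ) (t : ℂ) : ℝ := |t.im + η|

/-- the port matrix of a configuration (a port matrix for every `w`) -/
def Kw (L : G.Lat) (E η : ℝ) (w : L.X → ℂ) : L.Mat :=
  L.Km E η (fun x => ga η (w x)) fun x => (w x).re

/-- average of a functional of the port matrix in the ensemble with active laws `μ` -/
def Iw {L : G.Lat} {h : ℝ} (lab : Lab L.X h) (E η : ℝ) (μ : L.X → Measure ℂ) (F : L.Mat → ℝ) : ℝ :=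
  ∫ w, F (Kw L E η w) ∂lab.ens η μ

/-- two-state interpolation -/
def mix (p : ℝ) (μ₀ μ₁ : Measure ℂ) : Measure ℂ :=
  ENNReal.ofReal (1 - p) • μ₀ + ENNReal.ofReal p • μ₁

/-- `γ |z|²` at the value `t` -/
def shz (η : ℝ) (s t : ℂ) : ℝ := ga η t * ‖zz s t.re (ga η t)‖ ^ 2

/-- pointwise step inequality for a function of `(a, γ)` -/
def PW (s β : ℂ) (b : ℝ) (Ψ : ℝ → ℝ → ℝ) : Prop :=
  ∀ a γ γ' : ℝ, 0 ≤ γ' → γ' ≤ γ →
    Ψ a γ' ≤ Ψ a γ + (β * (zz s a γ' - zz s a γ)).re + b * (γ * ‖zz s a γ‖ ^ 2)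

/-- one-site property of the functional `Ψ` at the port `y`; `X` controls the first-order
coefficient, `Y` the second-order one -/
def Loc {P : Type} [Fintype P] [DecidableEq P] (y : P) (Ψ X Y : (P → P → ℂ) → ℝ) : Prop :=
  ∀ c : Cav y, ∃ (β : ℂ) (b : ℝ), 0 ≤ b ∧ PW c.s β b (fun a γ => Ψ (c.K a γ)) ∧
    (∀ a γ, 0 ≤ γ → ‖β‖ * (γ * ‖c.z a γ‖ ^ 2) ≤ X (c.K a γ)) ∧
    (∀ a γ, 0 ≤ γ → b * (γ * ‖c.z a γ‖ ^ 2) ≤ Y (c.K a γ))

/-- one-site property of the change of law `μ₀ → μ₁` -/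
def Step (η : ℝ) (μ₀ μ₁ : Measure ℂ) (C₁ : ℝ) (κ₁ : Measure ℂ) (C₂ : ℝ) (κ₂ : Measure ℂ) : Prop :=
  ∀ (s β : ℂ) (b : ℝ) (Ψ : ℝ → ℝ → ℝ), 0 < s.im → 0 ≤ b →
    BM (fun t : ℂ => Ψ t.re (ga η t)) → PW s β b Ψ →
    ∫ t, Ψ t.re (ga η t) ∂μ₁ ≤ ∫ t, Ψ t.re (ga η t) ∂μ₀ +
      C₁ * (‖β‖ * ∫ t, shz η s t ∂κ₁) + C₂ * (b * ∫ t, shz η s t ∂κ₂)

/-- lossy comparison: the active port at `o` against the active port at `y` -/
def LCat {L : G.Lat} {h : ℝ} (lab : Lab L.X h) (E η : ℝ) (μ : L.X → Measure ℂ) (W : L.Mat → ℝ)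
    (o y : L.X) (π : ℝ) (k : L.X → ℝ) : Prop :=
  ∀ q : L.P, Iw lab E η μ (fun K => W K * cc K (o, true) q) ≤
    π * (Iw lab E η μ (fun K => W K * cc K (y, true) q) + k q.1 * Iw lab E η μ W)

/-- bias principle at `y`: reference value `a₀ - i (η + b)` against the open law at strength `γ` -/
def BPat {L : G.Lat} {h : ℝ} (lab : Lab L.X h) (E η : ℝ) (μ : L.X → Measure ℂ) (W : L.Mat → ℝ)
    (y : L.X) (a₀ b γ ε α : ℝ) (k : L.X → ℝ) : Prop :=
  ∀ q : L.P, γ / b * Iw lab E η (Function.update μ y (Measure.dirac (pt (η + b) a₀)))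
      (fun K => W K * cc K (y, true) q) ≤
    ε * Iw lab E η (Function.update μ y (lift (η + γ) (law a₀ b)))
      (fun K => W K * cc K (y, true) q) + α * k q.1 * Iw lab E η μ W

/-- total share of the sites of `C` -/
def Sh {L : G.Lat} {h : ℝ} (lab : Lab L.X h) (E η : ℝ) (μ : L.X → Measure ℂ) (C : Finset L.X)
    (W : L.Mat → ℝ) (w : L.P → L.P → ℝ) : ℝ :=
  ∑ o ∈ C, Iw lab E η μ fun K => W K * Gam w K (o, true)

/-- total bias of the sites of `C` (the site `y` is put at the reference value) -/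
def Bi {L : G.Lat} {h : ℝ} (lab : Lab L.X h) (E η : ℝ) (μ : L.X → Measure ℂ) (C : Finset L.X)
    (a₀ b γ : L.X → ℝ) (W : L.Mat → ℝ) (w : L.P → L.P → ℝ) : ℝ :=
  ∑ y ∈ C, γ y / b y * Iw lab E η (Function.update μ y (Measure.dirac (pt (η + b y) (a₀ y))))
    fun K => W K * Gam w K (y, true)

/-- state in phase 0: the sites of `C` are between the clocks `c` and `c + 1` -/
def st0 {X : Type} [DecidableEq X] (h η : ℝ) (C : Finset X) (μ : X → Measure ℂ) (c : ℕ) (p : ℝ)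
    (x : X) : Measure ℂ :=
  if x ∈ C then mix p (lawC h η c) (lawC h η (c + 1)) else μ x

/-- state in phase 1: the sites of `C` are closed with probability `p` -/
def st1 {X : Type} [DecidableEq X] (η : ℝ) (C : Finset X) (μ : X → Measure ℂ) (a₀ b γ : X → ℝ)
    (p : ℝ) (x : X) : Measure ℂ :=
  if x ∈ C then mix p (lift (η + γ x) (law (a₀ x) (b x))) (lift η (law (a₀ x) (b x))) else μ x

/-- the laws of the sites of `C` are replaced -/
def rep {X : Type} [DecidableEq X] (C : Finset X) (μ ν : X → Measure ℂ) (x : X) : Measure ℂ :=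
  if x ∈ C then ν x else μ x

/-- tempered weight: one site changes `W` by at most the factor `e^κ` -/
def Temp {L : G.Lat} (E η : ℝ) (W : L.Mat → ℝ) (κ : ℝ) : Prop :=
  Nice W ∧ (∀ K, IsPort K → 0 ≤ W K) ∧ ∀ (w : L.X → ℂ) (y : L.X) (t : ℂ),
    W (Kw L E η (Function.update w y t)) ≤ Real.exp κ * W (Kw L E η w)

/-- kernel energy of the weight `w` -/
def Ak {L : G.Lat} (k : L.X → L.X → ℝ) (w : L.P → L.P → ℝ) : ℝ :=
  ∑ o, ∑ q : L.P, k o q.1 * w (o, true) q

/-- exponential kernel of range `D` -/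
def kx (L : G.Lat) (D : ℝ) (x y : L.X) : ℝ := Real.exp (-(Real.sqrt (L.rx x y) / D))

/-- quartic weight of unimodular functions -/
def w4 {P ι : Type} [Fintype ι] (U : ι → P → ℂ) (p q : P) : ℝ := ∑ i, ‖U i p - U i q‖ ^ 4

end Crest.Agent.N334.Sw
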