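import Crest.Agent.N334.Sw.Step
import Crest.Agent.N334.I.C0

/-!
# Row 334, S0519 SWITCH: one tick of the class-0 clock
-/

set_option autoImplicit false

open MeasureTheory Finset Complex
open scoped ComplexConjugate

noncomputable section

namespace Crest.Agent.N334.Sw

open G I

theorem isProb_lawC {h : ℝ} (hh : 0 < h) (η : ℝ) (c : ℕ) : IsProbabilityMeasure (lawC h η c) :=
  isProb_lawC' hh η c

namespace S0

variable {s : ℂ} {γ e : ℝ}

theorem continuous_zz (hs : 0 < s.im) (hγ : 0 ≤ γ) : Continuous fun a => zz s a γ := by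
  unfold zz
  exact continuous_const.div (by fun_prop) fun a => den_ne hs hγ

theorem norm_zz_eq (s : ℂ) (a γ : ℝ) : ‖zz s a γ‖ = 1 / ‖(a : ℂ) - I * γ - s‖ := by
  rw [zz, norm_div, norm_one]

theorem den_le (s : ℂ) (a e γ γ' : ℝ) :
    ‖(e : ℂ) - I * γ - s‖ ≤ ‖(a : ℂ) - I * γ' - s‖ + |a - e| + |γ - γ'| := by
  have : (e : ℂ) - I * γ - s = ((a : ℂ) - I * γ' - s) - ((a - e : ℝ) : ℂ) - I * ((γ - γ' : ℝ) : ℂ) := by
    push_cast; ring
  rw [this]
  refine (norm_sub_le _ _).trans (add_le_add ((norm_sub_le _ _).trans ?_) ?_)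
  · rw [Complex.norm_real, Real.norm_eq_abs]
  · rw [norm_mul, Complex.norm_I, one_mul, Complex.norm_real, Real.norm_eq_abs]

theorem zz_le_mul (hs : 0 < s.im) {a a' γ' K : ℝ} (hγ : 0 ≤ γ) (hγ' : 0 ≤ γ')
    (h : ‖(a' : ℂ) - I * γ' - s‖ ≤ K * ‖(a : ℂ) - I * γ - s‖) :
    ‖zz s a γ‖ ≤ K * ‖zz s a' γ'‖ := by
  rw [norm_zz_eq, norm_zz_eq, mul_one_div, div_le_div_iff₀ (norm_pos_iff.2 (den_ne hs hγ))
    (norm_pos_iff.2 (den_ne hs hγ')), one_mul]
  exact h

theorem le_den (hs : 0 < s.im) (a : ℝ) (hγ : 0 ≤ γ) : γ ≤ ‖(a : ℂ) - I * γ - s‖ := by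
  have := Complex.abs_im_le_norm ((a : ℂ) - I * γ - s)
  simp only [sub_im, ofReal_im, mul_im, I_re, zero_mul, I_im, ofReal_re, one_mul, zero_add,
    zero_sub] at this
  rw [abs_of_nonpos (by linarith)] at this
  linarith

/-- principal value -/
theorem pv (hs : 0 < s.im) {R : ℝ} (hR : 0 ≤ R) :
    ‖∫ a in (s.re - R)..(s.re + R), zz s a 0‖ ≤ Real.pi := by
  have hc := continuous_zz hs le_rfl
  have h1 := intervalIntegral.integral_comp_sub_left (a := s.re - R) (b := s.re + R)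
    (fun a => zz s a 0) (2 * s.re)
  rw [show 2 * s.re - (s.re + R) = s.re - R by ring, show 2 * s.re - (s.re - R) = s.re + R by ring]
    at h1
  have h2 : ∀ a : ℝ, ‖zz s a 0 + zz s (2 * s.re - a) 0‖ = 2 * ((0 + s.im) * ‖zz s a 0‖ ^ 2) := by
    intro a
    have e1 : zz s (2 * s.re - a) 0 = -conj (zz s a 0) := by
      unfold zz
      rw [map_div₀, map_one, ← div_neg]
      congr 1
      apply Complex.ext <;> simp
      ring
    rw [e1, ← sub_eq_add_neg, Complex.sub_conj, ← im_zz, norm_mul, Complex.norm_I, mul_one,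
      Complex.norm_real, Real.norm_eq_abs, abs_of_nonneg]
    rw [im_zz]; positivity
  have hc' : Continuous fun a => zz s (2 * s.re - a) 0 := hc.comp (by fun_prop)
  have h3 : (2 : ℂ) * ∫ a in (s.re - R)..(s.re + R), zz s a 0 =
      ∫ a in (s.re - R)..(s.re + R), (zz s a 0 + zz s (2 * s.re - a) 0) := by
    rw [intervalIntegral.integral_add (hc.intervalIntegrable _ _) (hc'.intervalIntegrable _ _), h1,
      two_mul]
  obtain ⟨i1, i2⟩ := integral_J_zz (s := s) (γ := 0) (by linarith)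
  have h4 := intervalIntegral.norm_integral_le_integral_norm (μ := volume)
    (f := fun a => zz s a 0 + zz s (2 * s.re - a) 0) (show s.re - R ≤ s.re + R by linarith)
  simp only [h2] at h4
  rw [← h3, norm_mul, intervalIntegral.integral_const_mul,
    intervalIntegral.integral_of_le (by linarith) (f := fun a => (0 + s.im) * ‖zz s a 0‖ ^ 2)] at h4
  have h5 := setIntegral_le_integral (s := Set.Ioc (s.re - R) (s.re + R)) i1
    (Filter.Eventually.of_forall fun a => by
      have := hs.le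
      show 0 ≤ (0 + s.im) * ‖zz s a 0‖ ^ 2
      positivity)
  simp only [Complex.norm_ofNat] at h4
  linarith

/-- closing a Lipschitz profile of width comparable to the strength -/
theorem close_lip (hs : 0 < s.im) (hγ : 0 < γ) {f : ℝ → ℝ} (hc : Continuous f)
    (hf : ∀ a, |f a| ≤ 1) (hlip : ∀ a x, |f a - f x| ≤ 4 * (|a - x| / γ))
    (hsupp : ∀ a, f a ≠ 0 → |a - e| ≤ 3 * γ) :
    ‖∫ a, f a • (zz s a 0 - zz s a γ)‖ ≤ 2100 * (γ ^ 2 * ‖zz s e γ‖ ^ 2) := by
  have c0 := continuous_zz hs le_rfl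
  have c1 := continuous_zz hs hγ.le
  have hsup : ∀ x R : ℝ, |x - e| + 3 * γ < R →
      ∫ a, f a • (zz s a 0 - zz s a γ) = ∫ a in (x - R)..(x + R), f a • (zz s a 0 - zz s a γ) :=
    fun x R hR => (intervalIntegral.integral_eq_integral_of_support_subset fun a ha => by
      have h1 := abs_le.1 (hsupp a fun h0 => ha (by simp [h0]))
      have h2 := le_abs_self (x - e)
      have h3 := neg_abs_le (x - e)
      constructor <;> linarith [h1.1, h1.2]).symm
  have hd := den_le s e e γ 0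
  simp only [sub_self, abs_zero, sub_zero, add_zero, abs_of_pos hγ] at hd
  rcases le_total (4 * γ) ‖(e : ℂ) - I * (0 : ℝ) - s‖ with h1 | h1
  · rw [hsup e (4 * γ) (by simp; linarith)]
    refine (intervalIntegral.norm_integral_le_of_norm_le_const
      (C := 25 * (γ * ‖zz s e γ‖ ^ 2)) fun a _ => ?_).trans ?_
    · by_cases h0 : f a = 0
      · rw [h0, zero_smul, norm_zero]; positivity
      have h2 := den_le s a e 0 0
      simp only [sub_self, abs_zero, add_zero] at h2
      have h3 := hsupp a h0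
      have h4 : ‖zz s a 0‖ ≤ 5 * ‖zz s e γ‖ := zz_le_mul hs le_rfl hγ.le (by linarith)
      have h5 := (norm_zz_mono (a := a) hs le_rfl hγ.le).trans h4
      rw [norm_smul, norm_zz_sub hs le_rfl hγ.le, Real.norm_eq_abs, sub_zero]
      calc _ ≤ 1 * (γ * (5 * ‖zz s e γ‖) * (5 * ‖zz s e γ‖)) := by gcongr; exact hf a
        _ = _ := by ring
    · rw [show e + 4 * γ - (e - 4 * γ) = 8 * γ by ring, abs_of_pos (by positivity)]
      nlinarith [mul_nonneg (sq_nonneg γ) (sq_nonneg ‖zz s e γ‖)]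
  · have h2 : |s.re - e| ≤ 4 * γ := by
      refine le_trans ?_ h1
      have := Complex.abs_re_le_norm ((e : ℂ) - I * (0 : ℝ) - s)
      rw [abs_sub_comm]
      simpa using this
    have h3 : 1 ≤ 5 * γ * ‖zz s e γ‖ := by
      rw [norm_zz_eq, mul_one_div, le_div_iff₀ (norm_pos_iff.2 (den_ne hs hγ.le))]
      linarith
    have h4 : 84 ≤ 2100 * (γ ^ 2 * ‖zz s e γ‖ ^ 2) := by nlinarith
    refine le_trans ?_ h4
    rw [hsup s.re (8 * γ) (by linarith)]
    have e1 : ∀ a, f a • (zz s a 0 - zz s a γ) =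
        ((f a - f s.re) • zz s a 0 - f a • zz s a γ) + f s.re • zz s a 0 := fun a => by
      simp only [smul_sub, sub_smul]; ring
    simp only [e1]
    have k1 : Continuous fun a => (f a - f s.re) • zz s a 0 - f a • zz s a γ :=
      ((hc.sub continuous_const).smul c0).sub (hc.smul c1)
    have k2 : Continuous fun a => f s.re • zz s a 0 := by fun_prop
    rw [intervalIntegral.integral_add (k1.intervalIntegrable _ _) (k2.intervalIntegrable _ _),
      intervalIntegral.integral_smul]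
    have a1 := intervalIntegral.norm_integral_le_of_norm_le_const (a := s.re - 8 * γ)
      (b := s.re + 8 * γ) (f := fun a => (f a - f s.re) • zz s a 0 - f a • zz s a γ)
      (C := 5 / γ) fun a _ => by
        refine (norm_sub_le _ _).trans ?_
        rw [norm_smul, norm_smul, Real.norm_eq_abs, Real.norm_eq_abs]
        have b1 : |a - s.re| * ‖zz s a 0‖ ≤ 1 := by
          rw [norm_zz_eq, mul_one_div, div_le_one (norm_pos_iff.2 (den_ne hs le_rfl))]
          simpa using Complex.abs_re_le_norm ((a : ℂ) - I * (0 : ℝ) - s)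
        have b2 : ‖zz s a γ‖ ≤ 1 / γ := by
          rw [norm_zz_eq]
          exact one_div_le_one_div_of_le hγ (le_den hs a hγ.le)
        have b3 : |f a - f s.re| * ‖zz s a 0‖ ≤ 4 / γ :=
          calc _ ≤ 4 * (|a - s.re| / γ) * ‖zz s a 0‖ := by gcongr; exact hlip _ _
            _ = 4 / γ * (|a - s.re| * ‖zz s a 0‖) := by ring
            _ ≤ 4 / γ * 1 := by gcongr
            _ = _ := mul_one _
        have b4 : |f a| * ‖zz s a γ‖ ≤ 1 * (1 / γ) := by gcongr; exact hf a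
        rw [show 5 / γ = 4 / γ + 1 * (1 / γ) by ring]
        exact add_le_add b3 b4
    rw [show s.re + 8 * γ - (s.re - 8 * γ) = 16 * γ by ring, abs_of_pos (by positivity),
      show 5 / γ * (16 * γ) = 80 by field_simp; norm_num] at a1
    have a2 : ‖f s.re • ∫ a in (s.re - 8 * γ)..(s.re + 8 * γ), zz s a 0‖ ≤ 1 * Real.pi := by
      rw [norm_smul, Real.norm_eq_abs]
      gcongr
      exacts [hf _, pv hs (by positivity)]
    linarith [norm_add_le (∫ a in (s.re - 8 * γ)..(s.re + 8 * γ),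
      ((f a - f s.re) • zz s a 0 - f a • zz s a γ))
      (f s.re • ∫ a in (s.re - 8 * γ)..(s.re + 8 * γ), zz s a 0), Real.pi_le_four]

theorem integrable_sq (hs : 0 < s.im) (hγ : 0 ≤ γ) (ν : Measure ℝ) [IsFiniteMeasure ν] :
    Integrable (fun a => γ * ‖zz s a γ‖ ^ 2) ν := by
  have := ((bm_shz 0 hs).comp (measurable_pt (0 + γ))).integrable ν
  simpa only [shz_pt 0 s _ hγ] using this

/-- integral of the share over an interval near `e` -/
theorem share_Icc (hs : 0 < s.im) (hγ : 0 < γ) {γ' x y D : ℝ} (h0 : γ / 2 ≤ γ') (h1 : γ' ≤ γ)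
    (hD : 0 ≤ D) (hxy : x ≤ y) (hx : ∀ a ∈ Set.Icc x y, |a - e| ≤ 2 * γ) :
    D * (y - x) * γ * ‖zz s e γ‖ ^ 2 / 50 ≤
      ∫ a, γ' * ‖zz s a γ'‖ ^ 2 ∂(ENNReal.ofReal D • volume.restrict (Set.Icc x y)) ∧
    ∫ a, γ' * ‖zz s a γ'‖ ^ 2 ∂(ENNReal.ofReal D • volume.restrict (Set.Icc x y)) ≤
      36 * (D * (y - x) * γ * ‖zz s e γ‖ ^ 2) := by
  have hγ' : 0 < γ' := by linarith
  have i1 := integrable_sq hs hγ'.le (volume.restrict (Set.Icc x y))
  rw [integral_smul_measure, ENNReal.toReal_ofReal hD, smul_eq_mul]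
  have hab : |γ - γ'| ≤ γ / 2 := abs_le.2 ⟨by linarith, by linarith⟩
  have l1 : ∀ a ∈ Set.Icc x y, γ * ‖zz s e γ‖ ^ 2 / 50 ≤ γ' * ‖zz s a γ'‖ ^ 2 := fun a ha => by
    have b1 := den_le s e a γ' γ
    rw [abs_sub_comm e, abs_sub_comm γ'] at b1
    have b2 : ‖zz s e γ‖ ≤ 5 * ‖zz s a γ'‖ :=
      zz_le_mul hs hγ.le hγ'.le (by linarith [le_den hs e hγ.le, hx a ha])
    have b3 : ‖zz s e γ‖ ^ 2 ≤ (5 * ‖zz s a γ'‖) ^ 2 := by gcongr
    nlinarith [sq_nonneg ‖zz s a γ'‖, mul_le_mul_of_nonneg_left b3 hγ.le]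
  have l2 : ∀ a ∈ Set.Icc x y, γ' * ‖zz s a γ'‖ ^ 2 ≤ 36 * (γ * ‖zz s e γ‖ ^ 2) := fun a ha => by
    have b1 := den_le s a e γ γ'
    have b2 : ‖zz s a γ'‖ ≤ 6 * ‖zz s e γ‖ :=
      zz_le_mul hs hγ'.le hγ.le (by linarith [le_den hs a hγ'.le, hx a ha])
    calc _ ≤ γ * (6 * ‖zz s e γ‖) ^ 2 := by gcongr
      _ = _ := by ring
  have m1 := setIntegral_mono_on (integrableOn_const (by simp)) i1 measurableSet_Icc l1
  have m2 := setIntegral_mono_on i1 (integrableOn_const (by simp)) measurableSet_Icc l2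
  rw [setIntegral_const, Real.volume_real_Icc_of_le hxy, smul_eq_mul] at m1 m2
  constructor
  · refine le_trans (le_of_eq ?_) (mul_le_mul_of_nonneg_left m1 hD); ring
  · refine (mul_le_mul_of_nonneg_left m2 hD).trans (le_of_eq ?_); ring

variable {h : ℝ}

/-- the scale of all shares at clock `c` -/
def mm (h : ℝ) (c : ℕ) (s : ℂ) : ℝ :=
  (h / 2 ^ c) ^ 2 / (2 * h) * (‖zz s h (h / 2 ^ c)‖ ^ 2 + ‖zz s (-h) (h / 2 ^ c)‖ ^ 2)

theorem mm_nonneg (hh : 0 < h) (c : ℕ) (s : ℂ) : 0 ≤ mm h c s := by unfold mm; positivity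

theorem fin_Icc (D x y : ℝ) :
    IsFiniteMeasure (ENNReal.ofReal D • (volume : Measure ℝ).restrict (Set.Icc x y)) :=
  ⟨by simp [ENNReal.mul_lt_top]⟩

theorem share_le (hh : 0 < h) (hs : 0 < s.im) (c : ℕ) :
    ∫ a, h / 2 ^ c * ‖zz s a (h / 2 ^ c)‖ ^ 2 ∂dens (fun a => chi h c a * ud h a) ≤
      72 * mm h c s := by
  set γ := h / 2 ^ c with hγd
  have hγ : 0 < γ := by positivity
  have f1 := fin_Icc (1 / (2 * h)) (h - 2 * γ) h
  have f2 := fin_Icc (1 / (2 * h)) (-h) (-h + 2 * γ)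
  refine (integral_mono_measure (dens_chi_le hh c) (Filter.Eventually.of_forall fun a => by
    positivity) (integrable_sq hs hγ.le _)).trans ?_
  rw [integral_add_measure (integrable_sq hs hγ.le _) (integrable_sq hs hγ.le _)]
  have a1 := (share_Icc (e := h) (x := h - 2 * γ) (y := h) (D := 1 / (2 * h)) hs hγ (by linarith)
    le_rfl (by positivity) (by linarith)
    fun a ha => abs_le.2 ⟨by linarith [ha.1], by linarith [ha.2]⟩).2
  have a2 := (share_Icc (e := -h) (x := -h) (y := -h + 2 * γ) (D := 1 / (2 * h)) hs hγ (by linarith)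
    le_rfl (by positivity) (by linarith)
    fun a ha => abs_le.2 ⟨by linarith [ha.1], by linarith [ha.2]⟩).2
  refine (add_le_add a1 a2).trans (le_of_eq ?_)
  rw [mm, ← hγd]; ring

theorem le_share (hh : 0 < h) (hs : 0 < s.im) (c c' : ℕ) (h0 : h / 2 ^ c / 2 ≤ h / 2 ^ c')
    (h1 : h / 2 ^ c' ≤ h / 2 ^ c) : mm h c s ≤
      200 * ∫ a, h / 2 ^ c' * ‖zz s a (h / 2 ^ c')‖ ^ 2 ∂dens (fun a => chi h c' a * ud h a) := by
  have hγ : 0 < h / 2 ^ c := by positivity
  have hγ' : 0 < h / 2 ^ c' := by positivity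
  have := isFinite_dens hh (chi_ud_le hh c')
  have b1 := integral_mono_measure (le_dens_chi hh c').1 (Filter.Eventually.of_forall fun a => by
    positivity) (integrable_sq hs hγ'.le _)
  have b2 := integral_mono_measure (le_dens_chi hh c').2 (Filter.Eventually.of_forall fun a => by
    positivity) (integrable_sq hs hγ'.le _)
  unfold mm
  set γ := h / 2 ^ c
  set γ' := h / 2 ^ c'
  have a1 := (share_Icc (e := h) (x := h - γ') (y := h) (D := 1 / (2 * h)) hs hγ h0 h1
    (by positivity) (by linarith) fun a ha => abs_le.2 ⟨by linarith [ha.1], by linarith [ha.2]⟩).1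
  have a2 := (share_Icc (e := -h) (x := -h) (y := -h + γ') (D := 1 / (2 * h)) hs hγ h0 h1
    (by positivity) (by linarith) fun a ha => abs_le.2 ⟨by linarith [ha.1], by linarith [ha.2]⟩).1
  have e1 : γ ^ 2 / (2 * h) * (‖zz s h γ‖ ^ 2 + ‖zz s (-h) γ‖ ^ 2) =
      100 * (1 / (2 * h) * (γ / 2) * γ * ‖zz s h γ‖ ^ 2 / 50 +
        1 / (2 * h) * (γ / 2) * γ * ‖zz s (-h) γ‖ ^ 2 / 50) := by ring
  have e2 : 1 / (2 * h) * (γ / 2) * γ * ‖zz s h γ‖ ^ 2 / 50 ≤
      1 / (2 * h) * (h - (h - γ')) * γ * ‖zz s h γ‖ ^ 2 / 50 := by gcongr; linarith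
  have e3 : 1 / (2 * h) * (γ / 2) * γ * ‖zz s (-h) γ‖ ^ 2 / 50 ≤
      1 / (2 * h) * (-h + γ' - -h) * γ * ‖zz s (-h) γ‖ ^ 2 / 50 := by gcongr; linarith
  linarith

/-- the part that closes at the tick `c` -/
def tent (h : ℝ) (c : ℕ) (a : ℝ) : ℝ := chi h c a - chi h (c + 1) a

theorem tent_nonneg (hh : 0 < h) (c : ℕ) (a : ℝ) : 0 ≤ tent h c a :=
  sub_nonneg.2 (chi_succ_le hh c a)

theorem tent_le (c : ℕ) (a : ℝ) : tent h c a ≤ chi h c a := sub_le_self _ (chi_nonneg _ _ _)

theorem continuous_tent (h : ℝ) (c : ℕ) : Continuous (tent h c) :=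
  (continuous_chi h c).sub (continuous_chi h _)

theorem tent_neg (h : ℝ) (c : ℕ) (a : ℝ) : tent h c (-a) = tent h c a := by simp [tent, chi]

theorem tent_ud (hh : 0 < h) (c : ℕ) (a : ℝ) :
    tent h c a * ud h a = 1 / (2 * h) * tent h c a := by
  unfold ud
  split_ifs with ha
  · ring
  · have h1 : h - |a| ≤ 0 := by linarith [not_le.1 ha]
    rw [tent, chi_eq_one hh (h1.trans (by positivity)), chi_eq_one hh (h1.trans (by positivity))]
    simp

theorem tent_supp (hh : 0 < h) {c : ℕ} {a : ℝ} (ha : tent h c a ≠ 0) :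
    0 < h - |a| ∧ h - |a| < 2 * (h / 2 ^ c) := by
  refine ⟨not_le.1 fun h1 => ha ?_, lt_of_chi_ne hh fun h1 => ha ?_⟩
  · rw [tent, chi_eq_one hh (h1.trans (by positivity)), chi_eq_one hh (h1.trans (by positivity)),
      sub_self]
  · exact le_antisymm (h1 ▸ tent_le c a) (tent_nonneg hh c a)

theorem tent_lip (hh : 0 < h) (c : ℕ) (a x : ℝ) :
    |tent h c a - tent h c x| ≤ 3 * (|a - x| / (h / 2 ^ c)) := by
  have h1 := abs_le.1 (chi_lip hh c a x)
  have h2 := abs_le.1 (chi_lip hh (c + 1) a x)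
  rw [half_pow, show |a - x| / (h / 2 ^ c / 2) = 2 * (|a - x| / (h / 2 ^ c)) by field_simp] at h2
  unfold tent
  exact abs_le.2 ⟨by linarith [h1.1, h2.2], by linarith [h1.2, h2.1]⟩

/-- ramp -/
def ramp (γ a : ℝ) : ℝ := max 0 (min 1 (1 / 2 + a / γ))

theorem ramp_add (γ a : ℝ) : ramp γ a + ramp γ (-a) = 1 := by
  unfold ramp
  rw [neg_div]
  generalize a / γ = t
  simp only [max_def, min_def]
  split_ifs <;> linarith

theorem side (hh : 0 < h) (hs : 0 < s.im) (c : ℕ) {σ : ℝ} (hσ : σ = 1 ∨ σ = -1) :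
    ‖∫ a, (tent h c a * ramp (h / 2 ^ c) (σ * a)) • (zz s a 0 - zz s a (h / 2 ^ c))‖ ≤
      2100 * ((h / 2 ^ c) ^ 2 * ‖zz s (σ * h) (h / 2 ^ c)‖ ^ 2) := by
  have hγ : 0 < h / 2 ^ c := by positivity
  have r0 : ∀ a, 0 ≤ ramp (h / 2 ^ c) a := fun a => le_max_left _ _
  have r1 : ∀ a, ramp (h / 2 ^ c) a ≤ 1 := fun a => max_le zero_le_one (min_le_left _ _)
  have t1 : ∀ a, tent h c a ≤ 1 := fun a => (tent_le c a).trans (chi_le_one _ _ _)
  have hσ1 : |σ| = 1 := by rcases hσ with rfl | rfl <;> simp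
  refine close_lip hs hγ ((continuous_tent h c).mul (by unfold ramp; fun_prop)) (fun a => ?_)
    (fun a x => ?_) fun a ha => ?_
  · rw [abs_of_nonneg (mul_nonneg (tent_nonneg hh c a) (r0 _))]
    exact mul_le_one₀ (t1 a) (r0 _) (r1 _)
  · have b1 : |ramp (h / 2 ^ c) (σ * a) - ramp (h / 2 ^ c) (σ * x)| ≤ |a - x| / (h / 2 ^ c) := by
      unfold ramp
      rw [max_comm, max_comm 0]
      refine (abs_max_sub_max_le_abs _ _ _).trans ((abs_min_sub_min_le_max _ _ _ _).trans ?_)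
      rw [sub_self, abs_zero]
      refine max_le (by positivity) (le_of_eq ?_)
      rw [add_sub_add_left_eq_sub, ← sub_div, ← mul_sub, abs_div, abs_mul, hσ1, one_mul,
        abs_of_pos hγ]
    have b2 := tent_lip hh c a x
    rw [show tent h c a * ramp (h / 2 ^ c) (σ * a) - tent h c x * ramp (h / 2 ^ c) (σ * x) =
      (tent h c a - tent h c x) * ramp (h / 2 ^ c) (σ * a) +
        tent h c x * (ramp (h / 2 ^ c) (σ * a) - ramp (h / 2 ^ c) (σ * x)) by ring]
    refine (abs_add_le _ _).trans ?_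
    rw [abs_mul, abs_mul, abs_of_nonneg (r0 _), abs_of_nonneg (tent_nonneg hh c x)]
    have b3 := mul_le_of_le_one_right (abs_nonneg (tent h c a - tent h c x)) (r1 (σ * a))
    have b4 := mul_le_of_le_one_left
      (abs_nonneg (ramp (h / 2 ^ c) (σ * a) - ramp (h / 2 ^ c) (σ * x))) (t1 x)
    linarith
  · obtain ⟨b1, b2⟩ := tent_supp hh (left_ne_zero_of_mul ha)
    have b3 : -(h / 2 ^ c / 2) < σ * a := by
      by_contra b4
      refine right_ne_zero_of_mul ha (max_eq_left ((min_le_right _ _).trans ?_))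
      have : σ * a / (h / 2 ^ c) ≤ -(1 / 2) := by rw [div_le_iff₀ hγ]; linarith [not_lt.1 b4]
      linarith
    rcases hσ with rfl | rfl <;> rcases abs_cases a with b4 | b4 <;> rw [abs_le] <;>
      constructor <;> linarith [b4.1, b4.2]

theorem close_le (hh : 0 < h) (hs : 0 < s.im) (c : ℕ) :
    ‖∫ a, (zz s a 0 - zz s a (h / 2 ^ c)) ∂dens (fun a => tent h c a * ud h a)‖ ≤
      2100 * mm h c s := by
  have hγ : 0 < h / 2 ^ c := by positivity
  rw [integral_dens (f := fun a => tent h c a * ud h a)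
    ((continuous_tent h c).measurable.mul (measurable_ud h)) fun a =>
    mul_nonneg (tent_nonneg hh c a) (ud_nonneg hh a)]
  have e1 : ∀ a, (tent h c a * ud h a) • (zz s a 0 - zz s a (h / 2 ^ c)) = (1 / (2 * h)) •
      ((tent h c a * ramp (h / 2 ^ c) (1 * a)) • (zz s a 0 - zz s a (h / 2 ^ c)) +
      (tent h c a * ramp (h / 2 ^ c) (-1 * a)) • (zz s a 0 - zz s a (h / 2 ^ c))) := fun a => by
    rw [← add_smul, ← mul_add, one_mul, neg_one_mul, ramp_add, mul_one, smul_smul, tent_ud hh]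
  have i1 : ∀ σ : ℝ, Integrable fun a =>
      (tent h c a * ramp (h / 2 ^ c) (σ * a)) • (zz s a 0 - zz s a (h / 2 ^ c)) := fun σ => by
    refine Continuous.integrable_of_hasCompactSupport
      (((continuous_tent h c).mul (by unfold ramp; fun_prop)).smul
        ((continuous_zz hs le_rfl).sub (continuous_zz hs hγ.le)))
      (HasCompactSupport.intro (isCompact_Icc (a := -h) (b := h)) fun a ha => ?_)
    have : tent h c a = 0 := by
      by_contra h0
      exact ha (Set.mem_Icc.2 (abs_le.1 (by linarith [(tent_supp hh h0).1])))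
    simp [this]
  simp only [e1]
  rw [integral_smul, integral_add (i1 1) (i1 (-1)), norm_smul, Real.norm_eq_abs,
    abs_of_pos (by positivity)]
  have a1 := side hh hs c (Or.inl rfl)
  have a2 := side hh hs c (Or.inr rfl)
  rw [one_mul h] at a1
  rw [neg_one_mul h] at a2
  refine (mul_le_mul_of_nonneg_left ((norm_add_le _ _).trans (add_le_add a1 a2))
    (by positivity)).trans (le_of_eq ?_)
  unfold mm; ring

theorem integral_shz_lawC (hh : 0 < h) (hs : 0 < s.im) (η : ℝ) (c : ℕ) :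
    ∫ t, shz η s t ∂lawC h η c =
      ∫ a, h / 2 ^ c * ‖zz s a (h / 2 ^ c)‖ ^ 2 ∂dens (fun a => chi h c a * ud h a) := by
  have := isFinite_opn hh η c
  have := isFinite_cls hh η c
  rw [lawC, integral_add_measure ((bm_shz η hs).integrable _) ((bm_shz η hs).integrable _), opn,
    integral_shz_lift η s (by positivity), cls]
  have := integral_shz_lift η s le_rfl (dens fun a => (1 - chi h c a) * ud h a)
  rw [add_zero] at this
  simp [this]

end S0

open S0 in
/-- one tick of the class-0 clock -/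
theorem step_zero : ∃ C : ℝ, 1 ≤ C ∧ ∀ (h η : ℝ) (c : ℕ) (p : ℝ), 0 < h → 0 ≤ p → p ≤ 1 →
    Step η (lawC h η c) (lawC h η (c + 1)) C (mix p (lawC h η c) (lawC h η (c + 1)))
      C (mix p (lawC h η c) (lawC h η (c + 1))) := by
  refine ⟨500000, by norm_num, fun h η c p hh hp0 hp1 s β b Ψ hs hb hΨ hP => ?_⟩
  have hγ : 0 < h / 2 ^ c := by positivity
  have hγ' : 0 < h / 2 ^ (c + 1) := by positivity
  have hle : h / 2 ^ (c + 1) ≤ h / 2 ^ c := by rw [half_pow]; linarith
  have p0 := isProb_lawC hh η c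
  have p1 := isProb_lawC hh η (c + 1)
  have ht0 : ∀ a, 0 ≤ tent h c a * ud h a := fun a =>
    mul_nonneg (tent_nonneg hh c a) (ud_nonneg hh a)
  have f0 := isFinite_dens hh (chi_ud_le hh c)
  have f1 := isFinite_dens hh (chi_ud_le hh (c + 1))
  have f2 := isFinite_dens hh (f := fun a => tent h c a * ud h a) fun a =>
    (mul_le_mul_of_nonneg_right (tent_le c a) (ud_nonneg hh a)).trans (chi_ud_le hh c a)
  have f3 := isFinite_cls hh η c
  have d1 : dens (fun a => chi h c a * ud h a) =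
      dens (fun a => chi h (c + 1) a * ud h a) + dens (fun a => tent h c a * ud h a) := by
    rw [← dens_add (measurable_chi_ud h _) (chi_ud_nonneg hh _) ht0]
    congr 1; funext a; unfold tent; ring
  have d2 : cls h η (c + 1) = cls h η c + lift η (dens fun a => tent h c a * ud h a) := by
    rw [cls, cls, ← lift_add, ← dens_add (measurable_cls_ud h _) (cls_ud_nonneg hh _) ht0]
    congr 2; funext a; unfold tent; ring
  have hm : mm h c s ≤ 200 * ∫ t, shz η s t ∂mix p (lawC h η c) (lawC h η (c + 1)) := by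
    rw [mix, integral_add_measure
      (((bm_shz η hs).integrable _).smul_measure ENNReal.ofReal_ne_top)
      (((bm_shz η hs).integrable _).smul_measure ENNReal.ofReal_ne_top), integral_smul_measure,
      integral_smul_measure, ENNReal.toReal_ofReal hp0, ENNReal.toReal_ofReal (by linarith),
      integral_shz_lawC hh hs, integral_shz_lawC hh hs, smul_eq_mul, smul_eq_mul]
    have a1 := le_share hh hs c c (by linarith) le_rfl
    have a2 := le_share hh hs c (c + 1) (half_pow h c).ge hle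
    nlinarith [mul_le_mul_of_nonneg_left a1 (sub_nonneg.2 hp1), mul_le_mul_of_nonneg_left a2 hp0]
  have s1 := step_lift hs hΨ hP (dens fun a => chi h (c + 1) a * ud h a) hγ'.le hle
  have s2 := step_lift hs hΨ hP (dens fun a => tent h c a * ud h a) le_rfl hγ.le
  rw [add_zero] at s2
  have sh := share_le hh hs c
  have hsh := sh
  rw [d1, integral_add_measure (integrable_sq hs hγ.le _) (integrable_sq hs hγ.le _)] at hsh
  rw [integral_shz_lift η s hγ.le] at s1 s2
  have n2 : 0 ≤ ∫ a, h / 2 ^ c * ‖zz s a (h / 2 ^ c)‖ ^ 2 ∂dens fun a => tent h c a * ud h a :=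
    integral_nonneg fun a => by positivity
  have b1 : ‖∫ a, (zz s a (h / 2 ^ (c + 1)) - zz s a (h / 2 ^ c))
      ∂dens fun a => chi h (c + 1) a * ud h a‖ ≤ 72 * mm h c s := by
    refine (norm_integral_le_of_norm_le (integrable_sq hs hγ.le _)
      (Filter.Eventually.of_forall fun a => ?_)).trans (by linarith)
    have b2 : ‖zz s a (h / 2 ^ (c + 1))‖ ≤ 2 * ‖zz s a (h / 2 ^ c)‖ := by
      refine zz_le_mul hs hγ'.le hγ.le ?_
      have b3 := den_le s a a (h / 2 ^ c) (h / 2 ^ (c + 1))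
      have b4 := le_den hs a hγ'.le
      rw [sub_self, abs_zero, abs_of_nonneg (sub_nonneg.2 hle)] at b3
      linarith [half_pow h c]
    rw [norm_zz_sub hs hγ'.le hle]
    calc _ ≤ (h / 2 ^ c - h / 2 ^ (c + 1)) * ‖zz s a (h / 2 ^ c)‖ * (2 * ‖zz s a (h / 2 ^ c)‖) := by
          gcongr
      _ = _ := by rw [half_pow]; ring
  have b2 := close_le hh hs c
  have iΨ : ∀ (μ : Measure ℂ) [IsFiniteMeasure μ], Integrable (fun t => Ψ t.re (ga η t)) μ :=
    fun μ _ => hΨ.integrable μ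
  have e0 : ∫ t, Ψ t.re (ga η t) ∂lawC h η c =
      ∫ t, Ψ t.re (ga η t) ∂lift (η + h / 2 ^ c) (dens fun a => chi h (c + 1) a * ud h a) +
      ∫ t, Ψ t.re (ga η t) ∂lift (η + h / 2 ^ c) (dens fun a => tent h c a * ud h a) +
      ∫ t, Ψ t.re (ga η t) ∂cls h η c := by
    rw [lawC, opn, d1, lift_add, integral_add_measure (iΨ _) (iΨ _),
      integral_add_measure (iΨ _) (iΨ _)]
  have e1 : ∫ t, Ψ t.re (ga η t) ∂lawC h η (c + 1) =
      ∫ t, Ψ t.re (ga η t) ∂lift (η + h / 2 ^ (c + 1)) (dens fun a => chi h (c + 1) a * ud h a) +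
      (∫ t, Ψ t.re (ga η t) ∂cls h η c +
      ∫ t, Ψ t.re (ga η t) ∂lift η (dens fun a => tent h c a * ud h a)) := by
    rw [lawC, opn, d2, integral_add_measure (iΨ _) (iΨ _), integral_add_measure (iΨ _) (iΨ _)]
  rw [e0, e1]
  have hβ := norm_nonneg β
  have hmm := mm_nonneg hh c s
  nlinarith [mul_le_mul_of_nonneg_left b1 hβ, mul_le_mul_of_nonneg_left b2 hβ,
    mul_le_mul_of_nonneg_left hsh hb, mul_le_mul_of_nonneg_left hm hβ,
    mul_le_mul_of_nonneg_left hm hb, mul_nonneg hβ hmm, mul_nonneg hb hmm]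

/-- the class-0 law is close to the closed uniform law -/
theorem lawC_tv {h : ℝ} (hh : 0 < h) (η : ℝ) (c : ℕ) {F : ℂ → ℝ} (hF : Measurable F) {M : ℝ}
    (hM : ∀ t, |F t| ≤ M) :
    ∫ t, F t ∂lift η (dens (ud h)) - ∫ t, F t ∂lawC h η c ≤ 4 * M / 2 ^ c := by
  have f0 := isFinite_dens hh (chi_ud_le hh c)
  have f1 := isFinite_opn hh η c
  have f2 := isFinite_cls hh η c
  have iF : ∀ (μ : Measure ℂ) [IsFiniteMeasure μ], Integrable F μ := fun μ _ =>
    (⟨hF, M, hM⟩ : BM F).integrable μ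
  have hM0 : 0 ≤ M := (abs_nonneg _).trans (hM 0)
  have key : ∀ g, |∫ t, F t ∂lift g (dens fun a => chi h c a * ud h a)| ≤ M * (2 / 2 ^ c) := by
    intro g
    refine (norm_integral_le_of_norm_le_const (f := F) (C := M)
      (Filter.Eventually.of_forall hM)).trans ?_
    refine mul_le_mul_of_nonneg_left (ENNReal.toReal_le_of_le_ofReal (by positivity) ?_) hM0
    have := opn_univ_le hh η c
    rwa [opn, lift_univ, ← lift_univ g] at this
  rw [← dens_chi_add hh c, lift_add, lawC, ← cls, integral_add_measure (iF _) (iF _),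
    integral_add_measure (iF _) (iF _), opn]
  have a1 := abs_le.1 (key η)
  have a2 := abs_le.1 (key (η + h / 2 ^ c))
  rw [show 4 * M / 2 ^ c = 2 * (M * (2 / 2 ^ c)) by ring]
  linarith [a1.2, a2.1]

end Crest.Agent.N334.Sw
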