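import Crest.Agent.N334.Sw.Iw
import Crest.Agent.N334.Sw.Step0

/-!
# Row 334, S0519 SWITCH (helper45): the two phases for an abstract functional
-/

set_option autoImplicit false

open MeasureTheory Finset

noncomputable section

namespace Crest.Agent.N334.Sw

open G I

/-- what the flows use about a functional `Ψ` -/
structure Fn {L : G.Lat} (Ψ W : L.Mat → ℝ) (w : L.P → L.P → ℝ) (X Y : L.X → L.Mat → ℝ)
    (c₁ l₀ : ℝ) : Prop where
  nΨ : Nice Ψ
  nW : Nice W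
  nX : ∀ y, Nice (X y)
  nY : ∀ y, Nice (Y y)
  X0 : ∀ y K, IsPort K → 0 ≤ X y K
  Y0 : ∀ y K, IsPort K → 0 ≤ Y y K
  W0 : ∀ K, IsPort K → 0 ≤ W K
  w0 : ∀ p q, 0 ≤ w p q
  c1 : 1 ≤ c₁
  l0 : 0 < l₀
  lb : ∀ K, IsPort K → l₀ ≤ Ψ K
  loc : ∀ y, Loc ((y, true) : L.P) Ψ (X y) (Y y)
  sum : ∀ K, IsPort K → ∀ θ : ℝ, 0 < θ → θ ≤ 1 → ∀ S : Finset L.X,
    ∑ y ∈ S, (X y K + Y y K) ≤ c₁ * (θ * Ψ K + θ⁻¹ * ∑ y ∈ S, W K * Gam w K (y, true))
  triv : ∀ K, IsPort K → W K * En w K ≤ Ψ K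

theorem isProb_rep {X : Type} [DecidableEq X] (S : Finset X) (μ ν : X → Measure ℂ)
    [∀ x, IsProbabilityMeasure (μ x)] [∀ x, IsProbabilityMeasure (ν x)] (x : X) :
    IsProbabilityMeasure (rep S μ ν x) := by
  unfold rep; split_ifs <;> infer_instance

theorem rep_of_mem {X : Type} [DecidableEq X] {S : Finset X} (μ ν : X → Measure ℂ) {x : X}
    (hx : x ∈ S) : rep S μ ν x = ν x := if_pos hx

theorem sum_Gam_le {L : G.Lat} {w : L.P → L.P → ℝ} (hw : ∀ p q, 0 ≤ w p q) (K : L.Mat)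
    (S : Finset L.X) : ∑ y ∈ S, Gam w K (y, true) ≤ En w K := by
  have h1 : ∑ y ∈ S, Gam w K (y, true) =
      ∑ p ∈ S.map ⟨fun y => ((y, true) : L.P), fun _ _ h => congrArg Prod.fst h⟩, Gam w K p := by
    rw [sum_map]; rfl
  rw [h1]
  exact sum_le_sum_of_subset_of_nonneg (subset_univ _) fun p _ _ => Gam_nonneg hw K p

namespace Fn

variable {L : G.Lat} {Ψ W : L.Mat → ℝ} {w : L.P → L.P → ℝ} {X Y : L.X → L.Mat → ℝ} {c₁ l₀ : ℝ}
  (F : Fn Ψ W w X Y c₁ l₀) {h : ℝ} (lab : Lab L.X h) (E : ℝ) {η : ℝ} (hh : 0 < h) (hη : 0 < η)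
  (μ : L.X → Measure ℂ) [∀ x, IsProbabilityMeasure (μ x)] (S : Finset L.X)
include F hh hη

theorem Sh_eq : Sh lab E η μ S W w = Iw lab E η μ fun K => ∑ y ∈ S, W K * Gam w K (y, true) :=
  (Iw_sum lab E hh hη μ S fun _ _ => F.nW.mul (nice_Gam _ _)).symm

theorem Sh_le : Sh lab E η μ S W w ≤ Iw lab E η μ Ψ := by
  rw [F.Sh_eq lab E hh hη μ S]
  refine Iw_mono lab E hh hη μ (Nice.sum S fun _ _ => F.nW.mul (nice_Gam _ _)) F.nΨ fun K hK => ?_
  rw [← mul_sum]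
  exact (mul_le_mul_of_nonneg_left (sum_Gam_le F.w0 K S) (F.W0 K hK)).trans (F.triv K hK)

theorem Iw_lb : l₀ ≤ Iw lab E η μ Ψ := by
  have := Iw_mono lab E hh hη μ (Nice.const l₀) F.nΨ F.lb
  rwa [Iw_const lab E hh μ] at this

theorem Iw_pos : 0 ≤ Iw lab E η μ Ψ := F.l0.le.trans (F.Iw_lb lab E hh hη μ)

theorem sum_Iw {θ π : ℝ} (h0 : 0 < θ) (h1 : θ ≤ 1) (hS : Sh lab E η μ S W w ≤ π * Iw lab E η μ Ψ) :
    ∑ y ∈ S, (Iw lab E η μ (X y) + Iw lab E η μ (Y y)) ≤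
      c₁ * (θ + θ⁻¹ * π) * Iw lab E η μ Ψ := by
  have nS : Nice fun K : L.Mat => ∑ y ∈ S, W K * Gam w K (y, true) :=
    Nice.sum S fun _ _ => F.nW.mul (nice_Gam _ _)
  have h2 := Iw_mono lab E hh hη μ (Nice.sum S fun y _ => (F.nX y).add (F.nY y))
    ((Nice.const c₁).mul (((Nice.const θ).mul F.nΨ).add ((Nice.const θ⁻¹).mul nS)))
    fun K hK => F.sum K hK θ h0 h1 S
  rw [Iw_sum lab E hh hη μ S fun y _ => (F.nX y).add (F.nY y), Iw_mul,
    Iw_add lab E hh hη μ ((Nice.const θ).mul F.nΨ) ((Nice.const θ⁻¹).mul nS), Iw_mul, Iw_mul,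
    ← F.Sh_eq lab E hh hη μ S] at h2
  simp only [Iw_add lab E hh hη μ (F.nX _) (F.nY _)] at h2
  refine h2.trans ?_
  have h3 := mul_le_mul_of_nonneg_left hS (inv_pos.2 h0).le
  have h4 : 0 ≤ c₁ := zero_le_one.trans F.c1
  rw [mul_assoc c₁]
  gcongr
  linarith

/-- one tick of the class-0 clock -/
theorem tick {C : ℝ} (hC : 1 ≤ C) (c : ℕ) (hstep : ∀ p, 0 ≤ p → p ≤ 1 →
      Step η (lawC h η c) (lawC h η (c + 1)) C (mix p (lawC h η c) (lawC h η (c + 1)))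
        C (mix p (lawC h η c) (lawC h η (c + 1))))
    {θ π : ℝ} (h0 : 0 < θ) (h1 : θ ≤ 1) (hS : ∀ q, 0 ≤ q → q ≤ 1 →
      Sh lab E η (st0 h η S μ c q) S W w ≤ π * Iw lab E η (st0 h η S μ c q) Ψ) :
    Iw lab E η (rep S μ fun _ => lawC h η (c + 1)) Ψ ≤
      Real.exp (C * (c₁ * (θ + θ⁻¹ * π))) * Iw lab E η (rep S μ fun _ => lawC h η c) Ψ := by
  have := isProb_lawC hh η c
  have := isProb_lawC hh η (c + 1)
  have h2 := Iw_flow lab E hh hη μ S (fun _ => lawC h η c) (fun _ => lawC h η (c + 1)) F.nΨ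
    le_rfl zero_le_one le_rfl (R := fun p => C * (c₁ * (θ + θ⁻¹ * π)) * p)
    (r := fun _ => C * (c₁ * (θ + θ⁻¹ * π))) (by fun_prop)
    (fun p _ => by simpa using (hasDerivAt_id' p).const_mul (C * (c₁ * (θ + θ⁻¹ * π))))
    fun p hp => by
      have := isProb_mix hp.1.le hp.2.le (lawC h η c) (lawC h η (c + 1))
      have := isProb_rep S μ fun _ => mix p (lawC h η c) (lawC h η (c + 1))
      have h3 := F.sum_Iw lab E hh hη (rep S μ fun _ => mix p (lawC h η c) (lawC h η (c + 1))) S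
        h0 h1 (hS p hp.1.le hp.2.le)
      rw [mul_assoc C]
      refine le_trans ?_ (mul_le_mul_of_nonneg_left h3 (zero_le_one.trans hC))
      rw [mul_sum]
      refine sum_le_sum fun y hy => ?_
      have h4 := Iw_step lab E hh hη (rep S μ fun _ => mix p (lawC h η c) (lawC h η (c + 1))) y
        F.nΨ (F.nX y) (F.nY y) (F.X0 y) (F.Y0 y) (zero_le_one.trans hC) (zero_le_one.trans hC)
        (F.loc y) (hstep p hp.1.le hp.2.le)
      have h5 : Function.update (rep S μ fun _ => mix p (lawC h η c) (lawC h η (c + 1))) y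
          (mix p (lawC h η c) (lawC h η (c + 1))) =
          rep S μ fun _ => mix p (lawC h η c) (lawC h η (c + 1)) :=
        Function.update_eq_self_iff.2 (by rw [rep_of_mem _ _ hy])
      rw [h5] at h4
      linarith
  simpa only [mix_one, mix_zero, mul_one, mul_zero, sub_zero] using h2

/-- closing the rest of class 0 -/
theorem last : ∃ j₀ : ℕ, ∀ c, j₀ ≤ c →
    Iw lab E η (rep S μ fun _ => lift η (dens (ud h))) Ψ ≤
      Real.exp 1 * Iw lab E η (rep S μ fun _ => lawC h η c) Ψ := by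
  obtain ⟨M, hM⟩ := F.nΨ.bdd
  obtain ⟨j₀, hj⟩ := pow_unbounded_of_one_lt (S.card * (4 * |M|) / l₀) (one_lt_two (α := ℝ))
  refine ⟨j₀, fun c hc => ?_⟩
  have := isProb_lawC hh η c
  have := isProb_unif hh
  have hδ : S.card * (4 * |M| / 2 ^ c) ≤ l₀ := by
    rw [div_lt_iff₀ F.l0] at hj
    have : (2 : ℝ) ^ j₀ ≤ 2 ^ c := pow_le_pow_right₀ one_le_two hc
    rw [← mul_div_assoc, div_le_iff₀ (by positivity)]
    nlinarith [F.l0]
  have h2 := Iw_flow lab E hh hη μ S (fun _ => lawC h η c) (fun _ => lift η (dens (ud h))) F.nΨ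
    le_rfl zero_le_one le_rfl (R := fun p => p) (r := fun _ => 1) (by fun_prop)
    (fun p _ => hasDerivAt_id' p) fun p hp => by
      have := isProb_mix hp.1.le hp.2.le (lawC h η c) (lift η (dens (ud h)))
      have := isProb_rep S μ fun _ => mix p (lawC h η c) (lift η (dens (ud h)))
      rw [one_mul]
      refine le_trans ?_ (hδ.trans (F.Iw_lb lab E hh hη _))
      rw [← nsmul_eq_mul]
      refine sum_le_card_nsmul _ _ _ fun y _ => ?_
      have := Iw_crude lab E hh hη (rep S μ fun _ => mix p (lawC h η c) (lift η (dens (ud h)))) y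
        F.nΨ (δ := 4 * |M| / 2 ^ c) (by positivity)
        (fun K hK => (hM K hK).trans (le_abs_self M)) fun G hG hb => lawC_tv hh η c hG hb
      linarith
  simpa only [mix_one, mix_zero, sub_zero] using h2

end Fn

theorem phase0 : ∃ C : ℝ, 1 ≤ C ∧ ∀ {L : G.Lat} {Ψ W : L.Mat → ℝ} {w : L.P → L.P → ℝ}
    {X Y : L.X → L.Mat → ℝ} {c₁ l₀ : ℝ}, Fn Ψ W w X Y c₁ l₀ → ∀ {h : ℝ} (lab : Lab L.X h) (E : ℝ)
    {η : ℝ}, 0 < h → 0 < η → ∀ (μ : L.X → Measure ℂ) [∀ x, IsProbabilityMeasure (μ x)]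
    (S : Finset L.X) (cs : ℕ), (∀ c, cs ≤ c → ∀ q, 0 ≤ q → q ≤ 1 →
      Sh lab E η (st0 h η S μ c q) S W w ≤ 2 ^ cs / 2 ^ c * Iw lab E η (st0 h η S μ c q) Ψ) →
    Iw lab E η (rep S μ fun _ => lift η (dens (ud h))) Ψ ≤
      Real.exp (C * c₁ * (cs + 1)) * Iw lab E η (rep S μ fun _ => lawC h η 0) Ψ := by
  obtain ⟨C, hC, hstep⟩ := step_zero
  refine ⟨9 * C, by linarith, fun {L Ψ W w X Y c₁ l₀} F {h} lab E {η} hh hη μ _ S cs hS => ?_⟩
  set f : ℕ → ℝ := fun c => Iw lab E η (rep S μ fun _ => lawC h η c) Ψ with hf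
  have hc1 := F.c1
  have hA : ∀ n, f n ≤ Real.exp (C * c₁ * (2 * n)) * f 0 := fun n => by
    induction n with
    | zero => simp
    | succ n ih =>
      have h1 := F.tick lab E hh hη μ S hC n (fun p => hstep h η n p hh) one_pos le_rfl (π := 1)
        fun q h0 h1 => by
          have := isProb_lawC hh η n
          have := isProb_lawC hh η (n + 1)
          have := isProb_mix h0 h1 (lawC h η n) (lawC h η (n + 1))
          have := isProb_rep S μ fun _ => mix q (lawC h η n) (lawC h η (n + 1))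
          rw [one_mul]
          exact F.Sh_le lab E hh hη (rep S μ fun _ => mix q (lawC h η n) (lawC h η (n + 1))) S
      refine h1.trans ((mul_le_mul_of_nonneg_left ih (Real.exp_pos _).le).trans (le_of_eq ?_))
      rw [← mul_assoc, ← Real.exp_add]
      congr 2
      push_cast; ring
  have hB : ∀ j, f (cs + j) ≤ Real.exp (C * c₁ * (8 * (1 - (3 / 4) ^ j))) * f cs := fun j => by
    induction j with
    | zero => simp
    | succ j ih =>
      have h1 := F.tick lab E hh hη μ S hC (cs + j) (fun p => hstep h η _ p hh)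
        (θ := (3 / 4) ^ j) (by positivity) (pow_le_one₀ (by norm_num) (by norm_num))
        (hS (cs + j) (Nat.le_add_right _ _))
      have h2 : ((3 / 4 : ℝ) ^ j)⁻¹ * (2 ^ cs / 2 ^ (cs + j)) ≤ (3 / 4) ^ j := by
        have e : ((3 / 4 : ℝ) ^ j)⁻¹ * (2 ^ cs / 2 ^ (cs + j)) = (2 / 3) ^ j := by
          rw [pow_add, ← inv_pow, ← div_div, div_self (by positivity), one_div, ← inv_pow,
            ← mul_pow]
          norm_num
        rw [e]
        exact pow_le_pow_left₀ (by norm_num) (by norm_num) j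
      have h3 : 0 ≤ f (cs + j) := by
        have := isProb_lawC hh η (cs + j)
        have := isProb_rep S μ fun _ => lawC h η (cs + j)
        exact F.Iw_pos lab E hh hη _
      have h4 : Real.exp (C * (c₁ * ((3 / 4) ^ j + ((3 / 4 : ℝ) ^ j)⁻¹ * (2 ^ cs / 2 ^ (cs + j))))) ≤
          Real.exp (C * (c₁ * (2 * (3 / 4) ^ j))) := by
        gcongr; linarith
      refine h1.trans ((mul_le_mul h4 ih h3 (Real.exp_pos _).le).trans (le_of_eq ?_))
      rw [← mul_assoc, ← Real.exp_add]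
      congr 2
      ring
  obtain ⟨j, hj⟩ := F.last lab E hh hη μ S
  have h0 : 0 ≤ f 0 := by
    have := isProb_lawC hh η 0
    have := isProb_rep S μ fun _ => lawC h η 0
    exact F.Iw_pos lab E hh hη _
  have h1 := hj (cs + j) (Nat.le_add_left _ _)
  have h2 := (hB j).trans (mul_le_mul_of_nonneg_left (hA cs) (Real.exp_pos _).le)
  refine h1.trans ((mul_le_mul_of_nonneg_left h2 (Real.exp_pos _).le).trans ?_)
  rw [← mul_assoc, ← mul_assoc, ← Real.exp_add, ← Real.exp_add]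
  refine mul_le_mul_of_nonneg_right (Real.exp_le_exp.2 ?_) h0
  have h3 : 1 ≤ C * c₁ := one_le_mul_of_one_le_of_one_le hC hc1
  have h4 : (0 : ℝ) ≤ (3 / 4) ^ j := by positivity
  have h5 : (0 : ℝ) ≤ cs := Nat.cast_nonneg _
  nlinarith [mul_nonneg (zero_le_one.trans h3) h4, mul_nonneg (zero_le_one.trans h3) h5]

/-! ### phase 1 -/

/-- total drift of the thinning flow -/
def Dr {L : G.Lat} {h : ℝ} (lab : Lab L.X h) (E η : ℝ) (μ : L.X → Measure ℂ) (S : Finset L.X)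
    (a₀ b γ : L.X → ℝ) (Ψ : L.Mat → ℝ) (q : ℝ) : ℝ :=
  ∑ y ∈ S, (Iw lab E η (Function.update (st1 η S μ a₀ b γ q) y (lift η (law (a₀ y) (b y)))) Ψ -
    Iw lab E η (Function.update (st1 η S μ a₀ b γ q) y (lift (η + γ y) (law (a₀ y) (b y)))) Ψ)

theorem isProb_st1 {X : Type} [DecidableEq X] (η : ℝ) (S : Finset X) (μ : X → Measure ℂ)
    [∀ x, IsProbabilityMeasure (μ x)] (a₀ γ : X → ℝ) {b : X → ℝ} (hb : ∀ x, 0 < b x) {q : ℝ}
    (h0 : 0 ≤ q) (h1 : q ≤ 1) (x : X) : IsProbabilityMeasure (st1 η S μ a₀ b γ q x) := by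
  have := law_prob (a₀ x) (hb x)
  unfold st1
  split_ifs
  · exact isProb_mix h0 h1 _ _
  · infer_instance

theorem drift_open : ∃ C : ℝ, 1 ≤ C ∧ ∀ {L : G.Lat} {Ψ W : L.Mat → ℝ} {w : L.P → L.P → ℝ}
    {X Y : L.X → L.Mat → ℝ} {c₁ l₀ : ℝ}, Fn Ψ W w X Y c₁ l₀ → ∀ {h : ℝ} (lab : Lab L.X h) (E : ℝ)
    {η : ℝ}, 0 < h → 0 < η → ∀ (μ : L.X → Measure ℂ) [∀ x, IsProbabilityMeasure (μ x)]
    (S : Finset L.X) (a₀ b γ : L.X → ℝ), (∀ x, 0 < b x ∧ 0 ≤ γ x ∧ γ x ≤ b x) →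
    ∀ q θ π : ℝ, 0 ≤ q → q < 1 → 0 < θ → θ ≤ 1 →
    Sh lab E η (st1 η S μ a₀ b γ q) S W w ≤ π * Iw lab E η (st1 η S μ a₀ b γ q) Ψ →
    Dr lab E η μ S a₀ b γ Ψ q ≤
      C * (c₁ * (θ + θ⁻¹ * π)) / (1 - q) * Iw lab E η (st1 η S μ a₀ b γ q) Ψ := by
  obtain ⟨C, hC, hstep⟩ := step_open
  refine ⟨C, hC, fun {L Ψ W w X Y c₁ l₀} F {h} lab E {η} hh hη μ _ S a₀ b γ hb q θ π h0 h1 hθ hθ'
    hS => ?_⟩
  have := isProb_st1 η S μ a₀ γ (fun x => (hb x).1) h0 h1.le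
  have h3 := F.sum_Iw lab E hh hη _ S hθ hθ' hS
  have hq : 0 < 1 - q := sub_pos.2 h1
  rw [div_mul_eq_mul_div, le_div_iff₀ hq, mul_assoc C]
  refine le_trans ?_ (mul_le_mul_of_nonneg_left h3 (zero_le_one.trans hC))
  rw [Dr, sum_mul, mul_sum]
  refine sum_le_sum fun y hy => ?_
  have := law_prob (a₀ y) (hb y).1
  have h4 := Iw_step lab E hh hη (st1 η S μ a₀ b γ q) y F.nΨ (F.nX y) (F.nY y) (F.X0 y) (F.Y0 y)
    (zero_le_one.trans hC) zero_le_one (F.loc y) (hstep η (a₀ y) _ _ (hb y).1 (hb y).2.1 (hb y).2.2)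
  have hy' : st1 η S μ a₀ b γ q y =
      mix q (lift (η + γ y) (law (a₀ y) (b y))) (lift η (law (a₀ y) (b y))) := if_pos hy
  have h5 := Iw_open_le lab E hh hη _ h0 h1.le hy' (F.nX y) (F.X0 y)
  have h6 := Iw_open_le lab E hh hη _ h0 h1.le hy' (F.nY y) (F.Y0 y)
  have h7 := Iw_nonneg lab E hη (st1 η S μ a₀ b γ q) (F.Y0 y)
  have h8 := mul_le_mul_of_nonneg_left h5 (zero_le_one.trans hC)
  have h9 := mul_le_mul_of_nonneg_right h4 hq.le
  nlinarith

theorem phase1 : ∃ C : ℝ, 1 ≤ C ∧ ∀ {L : G.Lat} {Ψ W : L.Mat → ℝ} {w : L.P → L.P → ℝ}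
    {X Y : L.X → L.Mat → ℝ} {c₁ l₀ : ℝ}, Fn Ψ W w X Y c₁ l₀ → ∀ {h : ℝ} (lab : Lab L.X h) (E : ℝ)
    {η : ℝ}, 0 < h → 0 < η → ∀ (μ : L.X → Measure ℂ) [∀ x, IsProbabilityMeasure (μ x)]
    (S : Finset L.X) (a₀ b γ : L.X → ℝ), (∀ x, 0 < b x ∧ 0 ≤ γ x ∧ γ x ≤ b x) →
    ∀ A B Λ : ℝ, 0 ≤ B → 1 ≤ Λ →
    (∀ q, 0 ≤ q → q < 1 → Dr lab E η μ S a₀ b γ Ψ q ≤
      (A / (1 - q) + B) * Iw lab E η (st1 η S μ a₀ b γ q) Ψ) →
    (∀ q, 0 ≤ q → q ≤ 1 → Sh lab E η (st1 η S μ a₀ b γ q) S W w ≤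
      (1 - q) * Λ * Iw lab E η (st1 η S μ a₀ b γ q) Ψ) →
    Iw lab E η (rep S μ fun x => lift η (law (a₀ x) (b x))) Ψ ≤
      Real.exp (A * Real.log Λ + B + C * c₁) *
        Iw lab E η (rep S μ fun x => lift (η + γ x) (law (a₀ x) (b x))) Ψ := by
  obtain ⟨C, hC, hdr⟩ := drift_open
  refine ⟨4 * C, by linarith, fun {L Ψ W w X Y c₁ l₀} F {h} lab E {η} hh hη μ _ S a₀ b γ hb A B Λ
    hB hΛ hE hS => ?_⟩
  have := fun x => law_prob (a₀ x) (hb x).1
  have hΛ0 : 0 < Λ := one_pos.trans_le hΛ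
  have hi : Λ⁻¹ ≤ 1 := inv_le_one_of_one_le₀ hΛ
  have hi0 : 0 < Λ⁻¹ := inv_pos.2 hΛ0
  have h1 := Iw_flow lab E hh hη μ S (fun x => lift (η + γ x) (law (a₀ x) (b x)))
    (fun x => lift η (law (a₀ x) (b x))) F.nΨ (a := 0) (b := 1 - Λ⁻¹) le_rfl (sub_nonneg.2 hi)
    (by linarith) (R := fun q => -(A * Real.log (1 - q)) + B * q) (r := fun q => A / (1 - q) + B)
    (by
      refine ContinuousOn.add (ContinuousOn.neg (continuousOn_const.mul
        (ContinuousOn.log (by fun_prop) fun q hq => ?_))) (by fun_prop)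
      linarith [hq.2])
    (fun q hq => by
      have hq' : 1 - q ≠ 0 := by linarith [hq.2]
      have := ((((hasDerivAt_id' q).const_sub 1).log hq').const_mul A).neg.add
        ((hasDerivAt_id' q).const_mul B)
      exact this.congr_deriv (by ring))
    fun q hq => hE q hq.1.le (by linarith [hq.2])
  have h2 := Iw_flow lab E hh hη μ S (fun x => lift (η + γ x) (law (a₀ x) (b x)))
    (fun x => lift η (law (a₀ x) (b x))) F.nΨ (a := 1 - Λ⁻¹) (b := 1) (sub_nonneg.2 hi)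
    (by linarith) le_rfl (R := fun q => -(4 * (C * c₁) * Real.sqrt ((1 - q) * Λ)))
    (r := fun q => 2 * (C * c₁) * Λ / Real.sqrt ((1 - q) * Λ)) (by fun_prop)
    (fun q hq => by
      have hq' : (1 - q) * Λ ≠ 0 := (mul_pos (sub_pos.2 hq.2) hΛ0).ne'
      have := (((((hasDerivAt_id' q).const_sub 1).mul_const Λ).sqrt hq').const_mul
        (4 * (C * c₁))).neg
      exact this.congr_deriv (by ring))
    fun q hq => by
      have hq0 : 0 ≤ q := (sub_nonneg.2 hi).trans hq.1.le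
      have hp : 0 < (1 - q) * Λ := mul_pos (sub_pos.2 hq.2) hΛ0
      have hp1 : (1 - q) * Λ ≤ 1 := by
        have : (1 - q) * Λ ≤ Λ⁻¹ * Λ := by gcongr; linarith [hq.1]
        rwa [inv_mul_cancel₀ hΛ0.ne'] at this
      have hs := Real.sqrt_pos.2 hp
      have h3 := hdr F lab E hh hη μ S a₀ b γ hb q _ _ hq0 hq.2 hs (Real.sqrt_le_one.2 hp1)
        (hS q hq0 hq.2.le)
      refine h3.trans (le_of_eq ?_)
      congr 1
      have h4 := Real.mul_self_sqrt hp.le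
      have h5 : 1 - q ≠ 0 := (sub_pos.2 hq.2).ne'
      set s := Real.sqrt ((1 - q) * Λ)
      field_simp
      linear_combination c₁ * h4
  simp only [mix_one, mix_zero] at h1 h2
  refine h2.trans ((mul_le_mul_of_nonneg_left h1 (Real.exp_pos _).le).trans ?_)
  have := isProb_rep S μ fun x => lift (η + γ x) (law (a₀ x) (b x))
  rw [← mul_assoc, ← Real.exp_add]
  refine mul_le_mul_of_nonneg_right (Real.exp_le_exp.2 ?_) (F.Iw_pos lab E hh hη _)
  simp only [sub_self, zero_mul, Real.sqrt_zero, mul_zero, neg_zero, sub_sub_cancel,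
    inv_mul_cancel₀ hΛ0.ne', Real.sqrt_one, mul_one, Real.log_inv, sub_zero, Real.log_one, add_zero]
  nlinarith [mul_nonneg hB hi0.le]

end Crest.Agent.N334.Sw
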